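import Vale.Agent.P167.H166N.Half
import Vale.Agent.P167.H469.BArm

/-!
# P167, general `q`, block Q-START (P2S): half annuli in the four directions

`NH e r0 b m m'`: no path of the colour `!e` crosses the half annulus of radii `m`, `m'` around `b`
on the right hand side of the line of direction `r0` through `b`. Probability and gluing.
-/

namespace Vale.Agent.P167.H704.S

open Finset Relation Vale.Agent.P167.FK Vale.Agent.P167.FKA
open Vale.Agent.P145.FB (PStep PConn)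
open Vale.Agent.P167.H632 (IncC cs pr nm_le le_nm cs_compl NoX an bl plane_glue)
open Vale.Agent.P167.H166N (Hs Qs Fold exists_fold)
open Vale.Agent.P167.H469 (Ks)
open Vale.Agent.P167.H192.TA (Xc Pw dq sr dF mem_dF cut_dq)
open Vale.Agent.P167.H192.Q (Xc_le pX_anti)

variable {Q : ℝ} {D : Finset (ℤ × ℤ)} {η : Cfg} {e : Bool} {b : ℤ × ℤ} {m m' : ℤ} {r0 : Fin 4}

/-- No crossing of the half annulus by the other colour. -/
def NH (e : Bool) (r0 : Fin 4) (b : ℤ × ℤ) (m m' : ℤ) : Set Cfg :=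
  {ω | NoX (cs e ω) (Hs r0 b) (pr e) b m m'}

theorem inc_NH (e : Bool) (r0 : Fin 4) (b : ℤ × ℤ) (m m' : ℤ) : IncC e (NH e r0 b m m') := by
  intro ω ω' h hω y y' h1 h2 h3 h4
  refine hω y y' h1 h2 h3 (h4.mono ?_ subset_rfl)
  intro v hv hv'
  exact hv (h v hv')

theorem pr_not' (e : Bool) : pr (!e) = 1 - pr e := by cases e <;> rfl

/-! ### the upper half plane -/

theorem pw_of_pconn {F Rg : Set (ℤ × ℤ)} {y y' : ℤ × ℤ} (h : PConn F Rg y y')
    (hy : ∀ w ∈ Rg, b.2 ≤ w.2) : Pw (F ∩ {v | b.2 ≤ v.2}) y y' := by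
  obtain ⟨h0, h1⟩ := h
  induction h1 with
  | refl => exact ReflTransGen.refl
  | @tail x z hx hxz ih =>
    have hxm := (show PConn F Rg y x from ⟨h0, hx⟩).right_mem
    refine ih.tail ⟨hxz.1.1, hxz.1.2.1, hxz.1.2.2, ?_⟩
    have h2 := hy _ hxm
    have h3 := hy _ hxz.2
    simp only [Set.mem_ofPred_eq]
    omega

theorem Xc_sub_NH (hm : m ≤ m') : (Xc (!e) b m m')ᶜ ⊆ NH e 2 b m m' := by
  intro ω hω y y' h1 h2 h3 h4
  apply hω
  rw [cs_compl] at h4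
  have h5 := pw_of_pconn (b := b) h4 (fun w hw => hw.1)
  obtain ⟨y0, y1, k1, k2, k3, k4, k5⟩ := cut_dq (b := b) (r := m) (R := m')
    (G := cs (!e) ω ∩ {v | b.2 ≤ v.2}) hm (h4.left_mem.1)
    (fun v hv => hv.2) h5 h2.le h3.ge
  refine ⟨y0, y1, k2, ?_, k3, k4.mono (G := cs (!e) ω ∩ dq b m m')
    (fun v hv => ⟨hv.1.1, hv.2⟩), k5⟩
  rw [pr_not', ← h1]
  exact k1.parity.symm

theorem nh_up (C : Ks Q) (hm : 1 ≤ m) (hm' : C.Λ * m ≤ m') (hη : Good η)
    (hD : ∀ v ∈ Bq b m', v ∉ Bq b m → v ∈ Qs 2 b → v ∈ D) : C.c0 ≤ Pr Q D η (NH e 2 b m m') := by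
  have hQ0 := C.hQ0
  have hΛ := C.hΛ
  have h1 : m ≤ C.Λ * m := by nlinarith
  refine le_trans ?_ (Pr_mono hQ0 (Xc_sub_NH (by omega)))
  rw [Pr_compl hQ0]
  have hF : dF b m m' ⊆ D := by
    intro v hv
    rw [mem_dF] at hv
    simp only [dq, Set.mem_ofPred_eq] at hv
    refine hD v ?_ ?_ ?_
    · unfold Bq
      rw [mem_product, mem_Ico, mem_Ico]
      omega
    · unfold Bq
      rw [mem_product, mem_Ico, mem_Ico]
      omega
    · show b.2 ≤ v.2
      omega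
  have h2 := Xc_le (c := !e) C.hQ hm hF hη (b := b) (r := m) (R := m')
  have h3 := pX_anti (c := !e) (b := b) C.hQ hm h1 hm'
  have h4 := C.half (!e) b m hm
  linarith

/-! ### symmetries -/

/-- A symmetry of the squares (`τ`) and of the sites (`s`). -/
structure Sm (τ s : ℤ × ℤ → ℤ × ℤ) : Prop where
  sym : τ ∈ syms
  inv : ∀ v, τ (τ v) = v
  step : ∀ u v : ℤ × ℤ, (v.1 = u.1 + 1 ∨ v.1 = u.1 - 1) → (v.2 = u.2 + 1 ∨ v.2 = u.2 - 1) →
    ((s v).1 = (s u).1 + 1 ∨ (s v).1 = (s u).1 - 1) ∧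
    ((s v).2 = (s u).2 + 1 ∨ (s v).2 = (s u).2 - 1) ∧
    τ (min (s u).1 (s v).1, min (s u).2 (s v).2) = (min u.1 v.1, min u.2 v.2)
  par : ∀ v, ((s v).1 + (s v).2) % 2 = (v.1 + v.2) % 2
  nrm : ∀ u v, nm (s u - s v) = nm (u - v)
  box : ∀ b v R, v ∈ Bq b R ↔ τ v ∈ Bq (s b) R

variable {τ s : ℤ × ℤ → ℤ × ℤ}

theorem Sm.path (h : Sm τ s) {F Rg Rg' : Set (ℤ × ℤ)} {u v : ℤ × ℤ} (hR : ∀ w ∈ Rg, s w ∈ Rg')
    (k : PConn F Rg u v) : PConn (τ ⁻¹' F) Rg' (s u) (s v) := by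
  obtain ⟨h0, h1⟩ := k
  induction h1 with
  | refl => exact PConn.refl (hR _ h0)
  | @tail x y _ hxy ih =>
    obtain ⟨a1, a2, a3⟩ := h.step x y hxy.1.1 hxy.1.2.1
    refine ih.tail ⟨a1, a2, ?_⟩ (hR _ hxy.2)
    rw [Set.mem_preimage, a3]
    exact hxy.1.2.2

theorem Sm.ge (h : Sm τ s) {r0 r1 : Fin 4} {b : ℤ × ℤ} {c : ℝ} (hQ : 0 < Q)
    (hH : ∀ w, w ∈ Hs r0 b → s w ∈ Hs r1 (s b)) (hQs : ∀ v, τ v ∈ Qs r1 (s b) → v ∈ Qs r0 b)
    (H : ∀ (D : Finset (ℤ × ℤ)) (η : Cfg), Good η →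
      (∀ v ∈ Bq (s b) m', v ∉ Bq (s b) m → v ∈ Qs r1 (s b) → v ∈ D) →
        c ≤ Pr Q D η (NH e r1 (s b) m m')) (hη : Good η)
    (hD : ∀ v ∈ Bq b m', v ∉ Bq b m → v ∈ Qs r0 b → v ∈ D) : c ≤ Pr Q D η (NH e r0 b m m') := by
  obtain ⟨g1, g2⟩ := f_sym τ h.sym
  have hD' : (D.image τ).image τ = D := by
    ext v
    simp only [mem_image]
    constructor
    · rintro ⟨_, ⟨w, hw, rfl⟩, rfl⟩
      rwa [h.inv]
    · intro hv
      exact ⟨τ v, ⟨v, hv, rfl⟩, h.inv v⟩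
  have h1 := H (D.image τ) (η ∘ τ) (g1 _ hη) (fun v h1 h2 h3 => by
    rw [mem_image]
    refine ⟨τ v, hD _ ?_ ?_ ?_, h.inv v⟩
    · rwa [h.box, h.inv]
    · rwa [h.box, h.inv]
    · exact hQs _ (by rwa [h.inv]))
  refine h1.trans ?_
  unfold Pr
  rw [g2 Q (D.image τ) η _ hQ hη, hD']
  refine Ex_mono hQ fun S _ => ?_
  generalize cf D η S = ω
  by_cases h2 : ω ∘ τ ∈ NH e r1 (s b) m m'
  · have h3 : ω ∈ NH e r0 b m m' := by
      intro y y' k1 k2 k3 k4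
      refine h2 (s y) (s y') (by rw [h.par]; exact k1) (by rw [h.nrm]; exact k2)
        (by rw [h.nrm]; exact k3) ?_
      refine (h.path (Rg' := Hs r1 (s b) ∩ an (s b) m m') ?_ k4).mono ?_ subset_rfl
      · rintro w ⟨w1, w2⟩
        refine ⟨hH w w1, ?_⟩
        simp only [an, Set.mem_ofPred_eq] at w2 ⊢
        rw [h.nrm]
        exact w2
      · intro v hv
        exact hv
    rw [Set.indicator_of_mem h2, Set.indicator_of_mem h3]
    exact le_refl (1 : ℝ)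
  · rw [Set.indicator_of_notMem h2]
    exact ind_nonneg _ _

theorem sm_sw : Sm (fun v => (v.2, v.1)) (fun v => (v.2, v.1)) where
  sym := by simp [syms]
  inv v := rfl
  step u v h1 h2 := ⟨h2, h1, rfl⟩
  par v := by dsimp only; rw [add_comm]
  nrm u v := by
    unfold nm
    simp only [Prod.fst_sub, Prod.snd_sub]
    exact max_comm _ _
  box b v R := by
    unfold Bq
    rw [mem_product, mem_product]
    exact and_comm

theorem sm_ry : Sm (fun v => (v.1, -1 - v.2)) (fun v => (v.1, -v.2)) where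
  sym := by simp [syms]
  inv v := by
    refine Prod.ext rfl ?_
    dsimp only
    ring
  step u v h1 h2 := by
    dsimp only
    refine ⟨h1, by omega, Prod.ext rfl ?_⟩
    dsimp only
    omega
  par v := by dsimp only; omega
  nrm u v := by
    unfold nm
    simp only [Prod.fst_sub, Prod.snd_sub]
    rw [show -u.2 - -v.2 = -(u.2 - v.2) by ring, abs_neg]
  box b v R := by
    unfold Bq
    simp only [mem_product, mem_Ico]
    omega

/-- **Half annuli without crossings, four directions.** -/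
theorem nh_ge (C : Ks Q) (r0 : Fin 4) (hm : 1 ≤ m) (hm' : C.Λ * m ≤ m') (hη : Good η)
    (hD : ∀ v ∈ Bq b m', v ∉ Bq b m → v ∈ Qs r0 b → v ∈ D) :
    C.c0 ≤ Pr Q D η (NH e r0 b m m') := by
  have hQ0 := C.hQ0
  have dn : ∀ (b : ℤ × ℤ) (D : Finset (ℤ × ℤ)) (η : Cfg), Good η →
      (∀ v ∈ Bq b m', v ∉ Bq b m → v ∈ Qs 0 b → v ∈ D) → C.c0 ≤ Pr Q D η (NH e 0 b m m') := by
    intro b D η hη hD
    refine sm_ry.ge (r0 := 0) (r1 := 2) hQ0 (fun w hw => ?_) (fun v hv => ?_)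
      (fun D η hη hD => nh_up C hm hm' hη hD) hη hD
    · have h : w.2 ≤ b.2 := hw
      show -b.2 ≤ -w.2
      omega
    · have h : -b.2 ≤ -1 - v.2 := hv
      show v.2 < b.2
      omega
  fin_cases r0
  · exact dn b D η hη hD
  · refine sm_sw.ge (r0 := 1) (r1 := 2) hQ0 (fun w hw => ?_) (fun v hv => ?_)
      (fun D η hη hD => nh_up C hm hm' hη hD) hη hD
    · exact hw
    · exact hv
  · exact nh_up C hm hm' hη hD
  · refine sm_sw.ge (r0 := 3) (r1 := 0) hQ0 (fun w hw => ?_) (fun v hv => ?_)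
      (fun D η hη hD => dn _ D η hη hD) hη hD
    · exact hw
    · exact hv

/-! ### gluing -/

/-- **Gluing in the half plane.** -/
theorem glueH {b : ℤ × ℤ} {H : Set (ℤ × ℤ)} {f g : ℤ × ℤ → ℤ × ℤ} (h : Fold b H f g)
    {F : Set (ℤ × ℤ)} {r R e : ℤ} (he : e = 0 ∨ e = 1)
    (hr : 1 ≤ r) (hrR : r ≤ R) (hN : NoX F H e b r R) {u v u' v' : ℤ × ℤ}
    (hu : (u.1 + u.2) % 2 = e) (hu' : (u'.1 + u'.2) % 2 = e) (k : PConn F (H ∩ bl b R) u v)
    (k' : PConn F (H ∩ bl b R) u' v') (h1 : nm (u - b) < r) (h1' : nm (u' - b) < r)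
    (h2 : R ≤ nm (v - b)) (h2' : R ≤ nm (v' - b)) : PConn F (H ∩ bl b R) u u' := by
  have hN' : NoX (g ⁻¹' F) Set.univ e b r R := by
    intro y y' hy hy1 hy2 hc
    rw [← Set.preimage_compl] at hc
    have hc' := h.path (F := Fᶜ) (Rg := Set.univ ∩ an b r R) (fun w hw => ⟨trivial, by
      have := hw.2
      simp only [an, Set.mem_ofPred_eq] at this ⊢
      rw [h.nrm]; exact this⟩) hc
    refine hN (f y) (f y') (by rw [h.par]; exact hy) (by rw [h.nrm]; exact hy1)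
      (by rw [h.nrm]; exact hy2) (hc'.mono subset_rfl ?_)
    intro w hw
    exact ⟨hw.1, hw.2.2⟩
  have key := plane_glue he hr hrR hN' hu hu' (h.unpath k) (h.unpath k') h1 h1' h2 h2'
  have := h.path (fun w hw => by
    have hw' : nm (w - b) ≤ R := hw
    show nm (f w - b) ≤ R
    rw [h.nrm]; exact hw') key
  rwa [h.fix _ k.left_mem.1, h.fix _ k'.left_mem.1] at this

end Vale.Agent.P167.H704.S
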