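import Vale.Agent.P167.H704.S.Asm
import Vale.Agent.P167.H208.Tub.Ex
import Vale.Agent.P167.H871.Q.LF1F

/-!
# P167, general `q`, block Q-START: `P2S`
-/

namespace Vale.Agent.P167.H704.S

open Finset MeasureTheory Filter Vale.Agent.P167.FK
open Vale.Agent.P167.H519 (IsLim)
open Vale.Agent.P167.H398.Q (P2S)

variable {θ β : ℝ} {P : Measure Cfg}

theorem oB_eq {l : ℕ} {p : ZMod l → ℤ × ℤ} {n : ℕ} {Q : H825.Marks} {bc : H825.Q.Bc}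
    (x : Fin l × Fin (Q.m + 1)) (ρ : ℤ) :
    H208.Tub.oB p n Q bc x (ρ + 4) = oB p n Q bc x ρ := by
  ext v
  rw [H208.Tub.mem_oB, mem_oB]
  constructor
  · rintro ⟨y, h1, h2, h3⟩
    exact ⟨y, h2, h1, h3⟩
  · rintro ⟨y, h1, h2, h3⟩
    exact ⟨y, h2, h1, h3⟩

theorem tubEx : TubEx := by
  intro l _ p S₀ hp hS Q hQ bc hb g _ hg hbg K Λ s0 hK hΛ
  obtain ⟨κ₁, h1, H⟩ := H208.Tub.tub_ex hp hS hQ hb hg hbg K hK Λ s0 hΛ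
  refine ⟨κ₁, h1, fun κ' h2 h3 => ?_⟩
  obtain ⟨N, H⟩ := H κ' h2 h3
  refine ⟨N, fun θ β δ h4 h5 => ?_⟩
  filter_upwards [H θ β δ h4 h5] with n H x hx
  obtain ⟨s, R₀, T, T', k1, k2, k3, k4⟩ := H x hx
  rw [oB_eq] at k3 k4
  exact ⟨s, R₀, T, T', k1, k2, k3, k4⟩

theorem frmZ (h0 : 0 < θ) (h1 : θ ≤ Real.pi / 3)
    (hβ : β = (θ - Real.pi) / 2 ∨ β = (Real.pi - 3 * θ) / 2) : FrmZ θ β := by
  intro l _ p n S₀ Q bc g δ R ρ ω hp hD hQ hg hδ hδg hn hb hbg hR hρ hρ2 hω hfz hT hsp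
  refine H871.Q.frame_TO_ne3 h0 h1 hβ hp hD hQ hg hδ hδg hn hb hbg hR hρ hρ2 hω hfz hT
    fun x hx hK => ?_
  obtain ⟨e', e'', v, t, m, m', M, M', k1, k2, k3, k4, k5, k6, k7, k8, k9, k10⟩ := hsp x hx hK
  refine ⟨e', e'', v, t, m, m', M, M', k2, by omega, k4, k5, k6, k7, k8, k9, ?_⟩
  rcases k10 with h | ⟨h, h', h''⟩
  · exact Or.inl h
  · exact Or.inr ⟨h, h'.le, h''⟩

/-- **P2S.** -/
theorem p2s (h0 : 0 < θ) (h1 : θ ≤ Real.pi / 3)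
    (hβ : β = (θ - Real.pi) / 2 ∨ β = (Real.pi - 3 * θ) / 2) (hP : IsLim (2 * Real.cos θ) P) :
    P2S θ β P :=
  p2s_of h0 h1 hβ (K8.k_rsw θ h0.le h1) hP (H199.good_aeQ h0.le h1 hP h0) tubEx (frmZ h0 h1 hβ)

end Vale.Agent.P167.H704.S
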