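import Vale.Agent.P167.H704.S.Frm
import Vale.Agent.P167.H398.Q.Fac
import Vale.Agent.P167.H398.Q.Zt1
import Vale.Agent.P167.H592.U.Near

/-!
# P167, general `q`, block Q-START: `P2S` from its deterministic parts

`TubEx`: existence of the tubes; `FrmZ`: the
product over the loops off the holes is not zero if each special point of zero type is protected.
-/

namespace Vale.Agent.P167.H704.S

open Finset Relation MeasureTheory Filter Vale.Agent.P167.FK Vale.Agent.P167.FKA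
open Vale.Agent.P145.FB (PStep PConn)
open Vale.Agent.P167.E6 (IsPolygon Encloses dir)
open Vale.Agent.P167.XDL (bS)
open Vale.Agent.P167.H199 (Gap)
open Vale.Agent.P167.H398.Q (hB Tjun Frz P2S)
open Vale.Agent.P167.H398.Zt (TyII t1_le t1_ev t2 t3 cZ cZ_pos)
open Vale.Agent.P167.H469 (Ks)
open Vale.Agent.P167.H506.Q (LF EF)
open Vale.Agent.P167.H519 (IsLim)
open Vale.Agent.P167.H632 (IncC cs pr)
open Vale.Agent.P167.H166N (Hs Qs NX)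
open Vale.Agent.P167.H825 (Marks pdir enl)
open Vale.Agent.P167.H825.Q (Row Bc)
open Vale.Agent.P167.H680.T (rowC uI frows)
open Vale.Agent.P167.H871 (Dep)
open Vale.Agent.P167.H945.Q (jn Plain Tc ctr tj face faces)
open Vale.Agent.P167.H662.Z (Spc K1 K2 K3 yO yI ex crn)
open Vale.Agent.P167.H135.Z (st pc Sd bxJ Db Rc AR ov sd E1 Gd)
open Vale.Agent.P167.H506.Q (dr)
open Vale.Agent.P167.Enl (BGap frows_okg exists_BGap)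
open Vale.Agent.P167.QX (QL TO)

/-- **The tubes.** -/
def TubEx : Prop := ∀ (l : ℕ) [NeZero l] (p : ZMod l → ℤ × ℤ) (S₀ : Finset (ℤ × ℤ)),
  IsPolygon p → Encloses p S₀ → ∀ Q : Marks, Q.Ok → ∀ bc : Bc, bc.Ok l Q → ∀ g : ℝ, 0 < g →
  Gap Q l g → BGap l Q g bc → ∀ (K : ℕ) (Λ s0 : ℤ), 3 ≤ K → 1 ≤ Λ →
  ∃ κ₁ : ℝ, 0 < κ₁ ∧ ∀ κ' : ℝ, 0 < κ' → κ' < κ₁ → ∃ N : ℕ, ∀ (θ β δ : ℝ), 0 < δ → 4 * δ ≤ g →
  ∀ᶠ n : ℕ in atTop, ∀ x : Fin l × Fin (Q.m + 1), Spc l Q bc x → ∃ (s R₀ : ℤ) (T T' : TubP),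
    2 ≤ s ∧ s + 8 ≤ ⌊4 * κ' * n⌋ ∧
    Tub K Λ s0 N (enl S₀ n) (uI (frows θ β p Q n ⌊δ * (n : ℝ)⌋₊ bc)) (oB p n Q bc x ⌊4 * κ' * n⌋)
      (yO p n Q bc x.1) (pdir p x.1) 0 (s - 1) ⌊4 * κ' * n⌋ R₀ T ∧
    Tub K Λ s0 N (enl S₀ n) (uI (frows θ β p Q n ⌊δ * (n : ℝ)⌋₊ bc)) (oB p n Q bc x ⌊4 * κ' * n⌋)
      (yO p n Q bc x.1) (pdir p x.1) (s + 2) (⌊4 * κ' * n⌋ - 4) ⌊4 * κ' * n⌋ R₀ T'

/-- **The frame.** -/
def FrmZ (θ β : ℝ) : Prop := ∀ (l : ℕ) [NeZero l] (p : ZMod l → ℤ × ℤ) (n : ℕ)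
  (S₀ : Finset (ℤ × ℤ)) (Q : Marks) (bc : Bc) (g δ : ℝ) (R ρ : ℤ) (ω : Cfg),
  IsPolygon p → Encloses p S₀ → Q.Ok → Gap Q l g → 0 < δ → 4 * δ ≤ g → 16 ≤ δ * n → bc.Ok l Q →
  BGap l Q g bc → (⌊δ * n⌋₊ : ℤ) + 4 ≤ R → 1 < ρ → 8 * (ρ : ℝ) ≤ g * n → Good ω →
  Frz (frows θ β p Q n ⌊δ * n⌋₊ bc) ω → Tjun θ (frows θ β p Q n ⌊δ * n⌋₊ bc) ρ ω ≠ 0 →
  (∀ x, Spc l Q bc x → ¬ K2 θ (frows θ β p Q n ⌊δ * n⌋₊ bc x) →
    ∃ (e' e'' : Bool) (v t : ℤ × ℤ) (m m' M M' : ℤ), 1 ≤ m ∧ m ≤ m' ∧ m' + 4 ≤ ρ ∧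
      (∀ w, (w ∈ enl S₀ n ∨ w ∈ uI (frows θ β p Q n ⌊δ * n⌋₊ bc)) →
        nm (w - yO p n Q bc x.1) + 2 ≤ M) ∧ M ≤ M' ∧ ω ∈ NX e'' (yO p n Q bc x.1) M M' ∧
      (v.1 + v.2) % 2 = pr e' ∧
      PConn (cs e' ω ∩ {w | w ∉ enl S₀ n ∧ w ∉ uI (frows θ β p Q n ⌊δ * n⌋₊ bc)}) Set.univ v t ∧
      M' + 2 ≤ nm (t - yO p n Q bc x.1) ∧
      (v = yO p n Q bc x.1 ∨ (v ∈ Hs (pdir p x.1) (yO p n Q bc x.1) ∧
        nm (v - yO p n Q bc x.1) < m ∧ ω ∈ NH e' (pdir p x.1) (yO p n Q bc x.1) m m'))) →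
  TO θ (uI (frows θ β p Q n ⌊δ * n⌋₊ bc)) (rowC θ (frows θ β p Q n ⌊δ * n⌋₊ bc) 0).ph
    (hB p Q n R : Set (ℤ × ℤ)) ω ≠ 0

variable {l : ℕ} {p : ZMod l → ℤ × ℤ} {n : ℕ} {S₀ : Finset (ℤ × ℤ)} {Q : Marks} {bc : Bc}
  {θ β g δ : ℝ} {r : Row} {b c : Bool} {A : Finset (ℤ × ℤ)} {v : ℤ × ℤ} {R s ρ : ℤ} {ω : Cfg}

/-- **Both colours**: an arm from near the junction and the shield give the lower bound of the factor
and the path. -/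
theorem shield_path {K N : ℕ} {Λ s0 s' M ρ R₀ : ℤ} {E I B : Finset (ℤ × ℤ)} {T : TubP}
    {e : Bool} (hK : 3 ≤ K) (h : Tub K Λ s0 N E I B (pc r b) (dr r b) s' M ρ R₀ T)
    (hv : (v.1 + v.2) % 2 = pr e) (hvH : v ∈ Hs (dr r b) (pc r b)) (hvm : nm (v - pc r b) < T.m)
    (hR : nm (v - pc r b) ≤ R) (hMR : M ≤ R - 1) (hA : ω ∈ AR r b e (Db r b R) v (R - 1))
    (hω : ω ∈ ShT e (dr r b) (pc r b) K T) :
    (∃ A : Finset (ℤ × ℤ), (∀ v ∈ A, v ∉ r.I) ∧ ω ∈ AR r b e A v ρ) ∧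
    ∃ t, K * T.R2 + 2 ≤ nm (t - pc r b) ∧
      PConn (cs e ω ∩ {w | w ∉ E ∧ w ∉ I}) Set.univ v t := by
  obtain ⟨z, h1, h2⟩ := hA
  have h3 := H506.Q.pconn_of_rc hvH hR h2
  have hM := h.hM
  obtain ⟨⟨y, h4, h5⟩, h6⟩ := tub_path hK h hv hvm (h3.mono subset_rfl Set.inter_subset_left)
    (by omega) hω
  exact ⟨⟨_, H506.Q.Db_I, y, h4, H506.Q.rc_of_pconn h5⟩, h6⟩

/-- The special point of zero type. -/
theorem exists_zero (hp : IsPolygon p) (hD : Encloses p S₀) (hQ : Q.Ok) (hg : Gap Q l g)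
    (hbc : bc.Ok l Q) (hbg : BGap l Q g bc) (h0 : 0 < θ) (h1 : θ ≤ Real.pi / 3)
    (hβ : β = (θ - Real.pi) / 2 ∨ β = (Real.pi - 3 * θ) / 2) :
    ∃ xz : Fin l × Fin (Q.m + 1), Spc l Q bc xz ∧ ∀ (δ : ℝ) (n : ℕ), 0 < δ → 4 * δ ≤ g →
      16 ≤ δ * n → (K1 θ (frows θ β p Q n ⌊δ * n⌋₊ bc xz) ∨ K3 θ (frows θ β p Q n ⌊δ * n⌋₊ bc xz)) ∧
        tj (frows θ β p Q n ⌊δ * n⌋₊ bc xz) (ex (pdir p xz.1)) *
          (frows θ β p Q n ⌊δ * n⌋₊ bc xz).j < 0 ∧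
        ∀ x, Spc l Q bc x → x ≠ xz → K2 θ (frows θ β p Q n ⌊δ * n⌋₊ bc x) := by
  have hl : 0 < l := by have := hp.1; omega
  have F : ∀ hb : bc = .free ∨ bc = .wired, ∃ xz : Fin l × Fin (Q.m + 1), Spc l Q bc xz ∧
      ∀ (δ : ℝ) (n : ℕ), 0 < δ → 4 * δ ≤ g → 16 ≤ δ * n →
      (K1 θ (frows θ β p Q n ⌊δ * n⌋₊ bc xz) ∨ K3 θ (frows θ β p Q n ⌊δ * n⌋₊ bc xz)) ∧
        tj (frows θ β p Q n ⌊δ * n⌋₊ bc xz) (ex (pdir p xz.1)) *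
          (frows θ β p Q n ⌊δ * n⌋₊ bc xz).j < 0 ∧
        ∀ x, Spc l Q bc x → x ≠ xz → K2 θ (frows θ β p Q n ⌊δ * n⌋₊ bc x) := by
    intro hb
    obtain ⟨x₀, -, hx⟩ := H662.Z.spc_fw hQ hl hb
    have h2 : Spc l Q bc x₀ := (hx x₀).2 rfl
    refine ⟨x₀, h2, fun δ n hδ hδg hn => ?_⟩
    obtain ⟨h3, h4⟩ := H662.Z.z2_fw (θ := θ) (β := β) hQ hbc hg hbg hδ hδg hn hp hD h0 h2 hb
    exact ⟨Or.inr h3, h4, fun x hs hne => absurd ((hx x).1 hs) hne⟩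
  rcases bc with _ | _ | ⟨ia, ta⟩
  · exact F (Or.inl rfl)
  · exact F (Or.inr rfl)
  · obtain ⟨xa, xb, hne, -, hx, H⟩ := H662.Z.z2_dob (θ := θ) (β := β) hQ hg hp hD h0
      (by linarith) hβ hbc hbg
    refine ⟨xa, (hx xa).2 (Or.inl rfl), fun δ n hδ hδg hn => ?_⟩
    obtain ⟨h3, h4, h5⟩ := H δ n hδ hδg hn
    refine ⟨Or.inl h3, h4, fun x hs hne' => ?_⟩
    rcases (hx x).1 hs with h | h
    · exact absurd h hne'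
    · rw [h]
      exact h5

theorem pr_ex (v : ℤ × ℤ) : ∃ e : Bool, (v.1 + v.2) % 2 = pr e := by
  rcases Int.emod_two_eq_zero_or_one (v.1 + v.2) with h | h
  · by_cases h1 : pr true = 0
    · exact ⟨true, by rw [h, h1]⟩
    · exact ⟨false, by rw [h]; revert h1; decide⟩
  · by_cases h1 : pr true = 1
    · exact ⟨true, by rw [h, h1]⟩
    · exact ⟨false, by rw [h]; revert h1; decide⟩

/-- **P2S from the tubes and the frame.** -/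
theorem p2s_of (h0 : 0 < θ) (h1 : θ ≤ Real.pi / 3)
    (hβ : β = (θ - Real.pi) / 2 ∨ β = (Real.pi - 3 * θ) / 2) (hR : RSW (2 * Real.cos θ))
    {P : Measure Cfg} (hP : IsLim (2 * Real.cos θ) P) (hgd : ∀ᵐ ω ∂P, Good ω) (hTub : TubEx)
    (hFrm : FrmZ θ β) : P2S θ β P := by
  classical
  have hQ1 : 1 ≤ 2 * Real.cos θ := H506.Q.one_le_two_cos h0 h1
  have hs0 : 0 < Real.sin θ := H506.Q.sin1_pos h0 h1
  obtain ⟨C⟩ := exists_Kn hQ1 hR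
  obtain ⟨C'⟩ := H469.exists_Ks hQ1 hR (H469.srsw_of_rsw h0 h1 hR)
  intro l _ p S₀ hp hD Q hQ bc hbc
  have hl : 0 < l := by have := hp.1; omega
  obtain ⟨g1, hg1, hG⟩ := H199.exists_Gap hQ l
  obtain ⟨g2, hg2, hBg⟩ := exists_BGap hbc
  obtain ⟨g, hg0, hg, hbg⟩ : ∃ g : ℝ, 0 < g ∧ Gap Q l g ∧ BGap l Q g bc :=
    ⟨min g1 g2, lt_min hg1 hg2, hG.mono (min_le_left _ _), hBg.mono (min_le_right _ _)⟩
  obtain ⟨xz, hxz, Hz⟩ := exists_zero (β := β) hp hD hQ hg hbc hbg h0 h1 hβ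
  obtain ⟨κ₁, hκ₁, H⟩ := hTub l p S₀ hp hD Q hQ bc hbc g hg0 hg hbg C.K C'.Λ C.s0 C.hK
    (by have := C'.hΛ; omega)
  refine ⟨min κ₁ (g / 32), lt_min hκ₁ (by positivity), fun κ' hκ' hκ'' => ?_⟩
  obtain ⟨N, H⟩ := H κ' hκ' (hκ''.trans_le (min_le_left _ _))
  have hκg : κ' < g / 32 := hκ''.trans_le (min_le_right _ _)
  obtain ⟨CT, hCT⟩ : ∃ CT, CT = H506.Q.MF θ * H506.Q.MZ θ ^ 3 := ⟨_, rfl⟩
  have hCT0 : 0 < CT := by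
    have hMZ := H506.Q.one_le_MZ (θ := θ)
    have hMF := H506.Q.one_le_MF (θ := θ)
    rw [hCT]
    positivity
  have hcS := cSh_pos C C' N
  have hcZ := cZ_pos (θ := θ)
  refine ⟨2 * CT / (cSh C C' N * cZ θ), g / 4, 1, by positivity, by positivity, one_pos,
    fun δ hδ hδ' => ?_⟩
  have hδg : 4 * δ ≤ g := by linarith
  have hlarge : ∀ {a : ℝ} (b : ℝ), 0 < a → ∀ᶠ n : ℕ in atTop, b ≤ a * n := fun b ha =>
    (tendsto_natCast_atTop_atTop.const_mul_atTop ha).eventually_ge_atTop b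
  filter_upwards [H θ β δ hδ hδg, hlarge 16 hδ, hlarge 1 hκ'] with n nH hn n2 σ hσ R₃ hR₃ _
  obtain ⟨s, R₀, T, T', hs2, hsρ, tb, tb'⟩ := nH xz hxz
  obtain ⟨ρ, hρ⟩ : ∃ ρ : ℤ, ρ = ⌊4 * κ' * n⌋ := ⟨_, rfl⟩
  rw [← hρ] at hsρ tb tb' ⊢
  have hρ1 : (ρ : ℝ) ≤ 4 * κ' * n := by rw [hρ]; exact Int.floor_le _
  have hn0 : (0 : ℝ) ≤ n := Nat.cast_nonneg n
  have hρg : 8 * (ρ : ℝ) ≤ g * n := by
    have : κ' * n ≤ g / 32 * n := mul_le_mul_of_nonneg_right hκg.le hn0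
    nlinarith
  have hgn : 64 ≤ g * n := by nlinarith
  obtain ⟨hK, hb, hK2⟩ := Hz δ n hδ hδg hn
  -- the row
  have hok := frows_okg (β := β) (bc := bc) hp hD hQ h0 (by linarith) hβ hg hbg hδ hδg hn xz
  have hpc := pc_frow (p := p) (θ := θ) (β := β) hQ hg hbg hδ hδg hn hxz
  have hdr := dr_frow (θ := θ) (β := β) (p := p) (n := n) (Q := Q) (bc := bc) (d := ⌊δ * n⌋₊) xz
  have hown : ∀ ω, Tc θ (uI (frows θ β p Q n ⌊δ * n⌋₊ bc)) (frows θ β p Q n ⌊δ * n⌋₊ bc xz) 2 ρ ω =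
      Tc θ (frows θ β p Q n ⌊δ * n⌋₊ bc xz).I (frows θ β p Q n ⌊δ * n⌋₊ bc xz) 2 ρ ω := by
    intro ω
    refine Enl.Tc_ownS hp hD hQ hg hδ hδg hn hbc hbg h0 (by linarith) hβ (fun _ =>
      H398.Zt.not_plain h0 h1 hK) (fun h => absurd rfl h) (fun _ => ?_) ω
    linarith
  have hIsub : ∀ v ∈ (frows θ β p Q n ⌊δ * n⌋₊ bc xz).I,
      v ∈ uI (frows θ β p Q n ⌊δ * n⌋₊ bc) := fun v hv => H680.T.mem_uI.2 ⟨_, hv⟩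
  have hz1 : ∀ y, ¬ Plain (frows θ β p Q n ⌊δ * n⌋₊ bc y) → Spc l Q bc y := fun y hy =>
    (H662.Z.z1 hQ hbc hg hbg hδ hδg hn hp hD h0 (by linarith) hβ).1 hy
  have hz2 : ∀ y, Spc l Q bc y → crn (frows θ β p Q n ⌊δ * n⌋₊ bc y) (ex (pdir p y.1)) =
      yO p n Q bc y.1 := fun y hy => H662.Z.z1_crn hQ hg hbg hδ hδg hn hy
  have hGd : Gd (frows θ β p Q n ⌊δ * n⌋₊ bc xz) ρ := by
    obtain ⟨k1, k2⟩ := H945.Q.ok_k0 hok (H398.Zt.not_plain h0 h1 hK)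
    constructor
    · omega
    · have : (ρ : ℝ) + 2 ≤ (frows θ β p Q n ⌊δ * n⌋₊ bc xz).k0 := by linarith
      exact_mod_cast this
    · have : ((frows θ β p Q n ⌊δ * n⌋₊ bc xz).k0 : ℝ) + ρ + 2 ≤
        (frows θ β p Q n ⌊δ * n⌋₊ bc xz).L := by linarith
      exact_mod_cast this
  have hGds : Gd (frows θ β p Q n ⌊δ * n⌋₊ bc xz) s := by
    have h2 := hGd.lo
    have h3 := hGd.hi
    exact ⟨hs2, by omega, by omega⟩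
  have hFr : ∀ ω, (∀ v ∈ uI (frows θ β p Q n ⌊δ * n⌋₊ bc), ω v = σ v) →
      Frz (frows θ β p Q n ⌊δ * n⌋₊ bc) ω := fun ω hω x v hv => by
    rw [hω v (H680.T.mem_uI.2 ⟨x, hv⟩)]
    exact hσ x v hv
  -- the factors
  have hTj : ∀ ω, Tjun θ (frows θ β p Q n ⌊δ * n⌋₊ bc) ρ ω =
      Tc θ (frows θ β p Q n ⌊δ * n⌋₊ bc xz).I (frows θ β p Q n ⌊δ * n⌋₊ bc xz) 2 ρ ω *
        Got θ β p n Q bc ⌊δ * n⌋₊ xz ρ ω := fun ω => by rw [tjun_eq xz, hown]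
  have hGl := got_loc (θ := θ) (β := β) (p := p) (n := n) (Q := Q) (bc := bc) (ρ := ρ)
    (d := ⌊δ * n⌋₊) xz hz1 hz2
  have hG0 := got_nonneg (β := β) (p := p) (n := n) (Q := Q) (bc := bc) (ρ := ρ) h0 h1
    (d := ⌊δ * n⌋₊) xz
  have hFrm' := fun ω => hFrm l p n S₀ Q bc g δ R₃ ρ ω hp hD hQ hg hδ hδg hn hbc hbg hR₃
    (by omega) hρg
  have hA : QL (({ω | TO θ (uI (frows θ β p Q n ⌊δ * n⌋₊ bc))
      (rowC θ (frows θ β p Q n ⌊δ * n⌋₊ bc) 0).ph (hB p Q n R₃ : Set (ℤ × ℤ)) ω ≠ 0}).indicator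
        (1 : Cfg → ℝ)) := by
    refine ((H398.Q.cb_TO (I := uI (frows θ β p Q n ⌊δ * n⌋₊ bc))
      (a := (rowC θ (frows θ β p Q n ⌊δ * n⌋₊ bc) 0).ph) (B := (hB p Q n R₃ : Set (ℤ × ℤ)))
      hs0 hQ1).1.comp fun x : ℝ => if x ≠ 0 then (1 : ℝ) else 0).congr fun ω _ => ?_
    by_cases h : TO θ (uI (frows θ β p Q n ⌊δ * n⌋₊ bc))
      (rowC θ (frows θ β p Q n ⌊δ * n⌋₊ bc) 0).ph (hB p Q n R₃ : Set (ℤ × ℤ)) ω ≠ 0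
    · rw [if_pos h, Set.indicator_of_mem h]
      rfl
    · rw [if_neg h, Set.indicator_of_notMem h]
  obtain ⟨r, hr⟩ : ∃ r, r = frows θ β p Q n ⌊δ * n⌋₊ bc xz := ⟨_, rfl⟩
  obtain ⟨b, hbb⟩ : ∃ b, b = ex (pdir p xz.1) := ⟨_, rfl⟩
  rw [← hr, ← hbb] at hpc hb hdr
  rw [← hr] at hK hok hGd hGds hIsub
  rw [← hpc, ← hdr] at tb tb'
  -- the frame, for the special point of zero type
  have hFz : ∀ ω, Good ω → (∀ v ∈ uI (frows θ β p Q n ⌊δ * n⌋₊ bc), ω v = σ v) →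
      Tc θ r.I r 2 ρ ω * Got θ β p n Q bc ⌊δ * n⌋₊ xz ρ ω ≠ 0 →
      (∃ (e' e'' : Bool) (v t : ℤ × ℤ) (m m' M M' : ℤ), 1 ≤ m ∧ m ≤ m' ∧ m' + 4 ≤ ρ ∧
      (∀ w, (w ∈ enl S₀ n ∨ w ∈ uI (frows θ β p Q n ⌊δ * n⌋₊ bc)) →
        nm (w - pc r b) + 2 ≤ M) ∧ M ≤ M' ∧ ω ∈ NX e'' (pc r b) M M' ∧
      (v.1 + v.2) % 2 = pr e' ∧
      PConn (cs e' ω ∩ {w | w ∉ enl S₀ n ∧ w ∉ uI (frows θ β p Q n ⌊δ * n⌋₊ bc)}) Set.univ v t ∧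
      M' + 2 ≤ nm (t - pc r b) ∧ (v = pc r b ∨
        (v ∈ Hs (dr r b) (pc r b) ∧ nm (v - pc r b) < m ∧ ω ∈ NH e' (dr r b) (pc r b) m m'))) →
      ω ∈ {ω | TO θ (uI (frows θ β p Q n ⌊δ * n⌋₊ bc))
        (rowC θ (frows θ β p Q n ⌊δ * n⌋₊ bc) 0).ph (hB p Q n R₃ : Set (ℤ × ℤ)) ω ≠ 0} := by
    intro ω hω hk hT hsp
    refine hFrm' ω hω (hFr ω hk) (by rw [hTj, ← hr]; exact hT) fun x hx hxK => ?_
    have hxx : x = xz := by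
      by_contra hne
      exact hxK (hK2 x hx hne)
    rw [hpc, hdr] at hsp
    rw [hxx]
    exact hsp
  obtain ⟨e, he⟩ := pr_ex (pc r b)
  rw [funext hTj, ← hr]
  obtain ⟨Gt, hGt⟩ : ∃ Gt, Gt = Got θ β p n Q bc ⌊δ * n⌋₊ xz ρ := ⟨_, rfl⟩
  rw [← hGt] at hFz hGl hG0 ⊢
  have hTc0 : ∀ ω, 0 ≤ Tc θ r.I r 2 ρ ω := fun ω => H945.Q.Tc_nonneg h0 h1 _ _ _ _ _
  refine law hP hgd C C' tb tb' (T0 := Tc θ r.I r 2 ρ) (G0 := Gt) hG0 (fun ω ω' hh => hGl ω ω'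
    fun v hv => hh v (mem_union_right _ hv)) ⟨_, H945.Q.Tc_loc _ _ _ _⟩ hTc0
    (S := AR r b e (Db r b s) (pc r b) (s - 1)) inc_AR ⟨_, dep_AR⟩
    (if TyII θ r b e then faces r b 0 r.L else ∅) (V := fun x => E1 r b (!e) x s)
    (W := fun x => AR r b (!e) (Db r b ρ) (sd (!e) x) (ρ - 1)) ?_ (fun _ _ => inc_AR)
    (fun _ _ => ⟨_, dep_AR⟩) hCT0 hcZ (fun ω hω => ?_) (fun ω hω hne => ?_) ?_ hA ?_
  · intro x _ ω ω' hh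
    have h2 := H506.Q.E1_congr (r := r) (b := b) (s := s) (c := !e) (x := x) (ω := ω) (ω' := ω')
      fun v hv => hh v (mem_union_right _ (mem_union_right _
        (H506.Q.bxJ_sub (m := s + 2) (by omega) hv)))
    show (E1 r b (!e) x s).indicator 1 ω = (E1 r b (!e) x s).indicator 1 ω'
    by_cases h3 : ω ∈ E1 r b (!e) x s
    · rw [Set.indicator_of_mem h3, Set.indicator_of_mem (h2.1 h3)]
      rfl
    · rw [Set.indicator_of_notMem h3, Set.indicator_of_notMem fun h4 => h3 (h2.2 h4)]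
  · rw [hCT]
    exact t1_le h0 h1 hok.s hK hb hGd hω
  · rcases t1_ev h0 h1 hok.s hK hb he hGd hGds (by omega) hne with h2 | ⟨h2, x, h3, h4⟩
    · exact Or.inl h2
    · right
      obtain ⟨⟨i, hi, hx⟩, -⟩ := H506.Q.E1_near (c' := e) h3 (by have := hGd.hi; omega)
      refine ⟨x, ?_, h3, h4⟩
      rw [if_pos h2, hx]
      exact mem_image.2 ⟨i, mem_Ico.2 ⟨Nat.zero_le _, hi⟩, rfl⟩
  · intro ω x _ x' _ h2 h3
    exact singleton_inj.1 (h2.1.symm.trans h3.1)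
  · intro ω hω hk hev
    rcases hev with ⟨h2, h3⟩ | ⟨x, hx, h2, h3, h4⟩
    · obtain ⟨⟨A, k1, k2⟩, t, k3, k4⟩ := shield_path C.hK tb he (H506.Q.pc_mem r b)
        (by rw [H506.Q.nm_pc]; have := tb.hm; omega) (R := s) (by rw [H506.Q.nm_pc]; omega) le_rfl
        h2 h3
      refine ⟨t2 h0 h1 hok.s hK hb he hGd hω k1 k2, fun hne => hFz ω hω hk hne
        ⟨e, e, pc r b, t, T.m, T.m', 2 * T.R2 + 1, C.K * T.R2, tb.hm, tb.hmm, ?_, tb.inn, ?_,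
          h3.2.2.2, he, k4, k3, Or.inl rfl⟩⟩
      · have := tb.hM
        omega
      · have h5 := tb.hR2
        have h6 : (3 : ℤ) ≤ C.K := by exact_mod_cast C.hK
        nlinarith
    · have hty : TyII θ r b e := by
        by_contra hno
        rw [if_neg hno] at hx
        exact absurd hx (notMem_empty _)
      obtain ⟨-, k5, k6⟩ := H506.Q.E1_near (c' := !e) h2 (by have := hGd.hi; omega)
      have k7 := tb'.hs'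
      obtain ⟨⟨A, k1, k2⟩, t, k3, k4⟩ := shield_path C.hK tb' (H135.Z.sd_par (!e) x) k6
        (by omega) (R := ρ) (by omega) (by omega) h3 h4
      refine ⟨t3 h0 h1 hok.s hty hb hGd hGds hω k1 h2 k2, fun hne => hFz ω hω hk hne
        ⟨!e, !e, sd (!e) x, t, T'.m, T'.m', 2 * T'.R2 + 1, C.K * T'.R2, tb'.hm, tb'.hmm, ?_,
          tb'.inn, ?_, h4.2.2.2, H135.Z.sd_par (!e) x, k4, k3, Or.inr ⟨k6, by omega, h4.1⟩⟩⟩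
      · have := tb'.hM
        omega
      · have h5 := tb'.hR2
        have h6 : (3 : ℤ) ≤ C.K := by exact_mod_cast C.hK
        nlinarith

end Vale.Agent.P167.H704.S
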