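import Vale.Agent.P167.H704.S.Law
import Vale.Agent.P167.H662.Z.Near
import Vale.Agent.P167.H506.Q.Hz2
import Vale.Agent.P167.H945.S.SGeo

/-!
# P167, general `q`, block Q-START (P2S): the frame near the special points
-/

namespace Vale.Agent.P167.H704.S

open Finset Relation MeasureTheory Vale.Agent.P167.FK Vale.Agent.P167.FKA
open Vale.Agent.P145.FB (PStep PConn)
open Vale.Agent.P167.E6 (IsPolygon Encloses dir)
open Vale.Agent.P167.H199 (Gap)
open Vale.Agent.P167.H632 (IncC cs pr)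
open Vale.Agent.P167.H166N (Hs Qs)
open Vale.Agent.P167.H825 (Marks pdir enl)
open Vale.Agent.P167.H825.Q (Row Bc)
open Vale.Agent.P167.H680.T (uI frows)
open Vale.Agent.P167.H871 (Dep)
open Vale.Agent.P167.H945.Q (jn Plain Tc ctr tj face faces)
open Vale.Agent.P167.H662.Z (Spc K1 K2 K3 yO yI ex crn)
open Vale.Agent.P167.H135.Z (st pc Sd bxJ Db Rc AR ov sd E1 Gd)
open Vale.Agent.P167.H506.Q (dr)
open Vale.Agent.P167.Enl (BGap)

variable {l : ℕ} {p : ZMod l → ℤ × ℤ} {n : ℕ} {S₀ : Finset (ℤ × ℤ)} {Q : Marks} {bc : Bc}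
  {θ β g δ : ℝ} {r : Row} {b c : Bool} {A : Finset (ℤ × ℤ)} {v : ℤ × ℤ} {R s ρ : ℤ} {ω : Cfg}

/-! ### arms -/

theorem rc_congr {ω ω' : Cfg} (h : ∀ v ∈ A, ω v = c → ω' v = c) {u v : ℤ × ℤ}
    (k : Rc c A ω u v) : Rc c A ω' u v := by
  refine ReflTransGen.mono (fun s t h1 => ?_) _ _ k
  exact ⟨h1.1, h1.2.1, h _ h1.2.2.2 h1.2.2.1, h1.2.2.2⟩

theorem dep_AR : Dep A (AR r b c A v R) := by
  rintro ω ω' h ⟨z, h1, h2⟩
  exact ⟨z, h1, rc_congr (fun v hv hc => by rw [← h v hv]; exact hc) h2⟩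

theorem inc_AR : IncC c (AR r b c A v R) := by
  rintro ω ω' h ⟨z, h1, h2⟩
  exact ⟨z, h1, rc_congr (fun v _ hc => h v hc) h2⟩

/-! ### the direction and the site of the junction -/

theorem pc_crn (r : Row) (b : Bool) : pc r b = crn r b := by
  unfold pc st crn Row.sq
  by_cases ho : r.o = true <;> simp [ho]

theorem dr_frow {d : ℕ} (x : Fin l × Fin (Q.m + 1)) :
    dr (frows θ β p Q n d bc x) (ex (pdir p x.1)) = pdir p x.1 := by
  have h := H662.Z.frow_o (θ := θ) (β := β) (p := p) (n := n) (Q := Q) (bc := bc) (d := d) x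
  unfold dr ex
  generalize pdir p x.1 = k at h ⊢
  fin_cases k <;> simp at h ⊢ <;> simp [h]

section

variable (hp : IsPolygon p) (hD : Encloses p S₀) (hQ : Q.Ok) (hg : Gap Q l g)
  (hbg : BGap l Q g bc) (hδ : 0 < δ) (hδg : 4 * δ ≤ g) (hn : 16 ≤ δ * n)

include hQ hg hbg hδ hδg hn in
theorem pc_frow {x : Fin l × Fin (Q.m + 1)} (h : Spc l Q bc x) :
    pc (frows θ β p Q n ⌊δ * n⌋₊ bc x) (ex (pdir p x.1)) = yO p n Q bc x.1 := by
  rw [pc_crn]
  exact H662.Z.z1_crn hQ hg hbg hδ hδg hn h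

end

/-! ### the other special points -/

/-- The boxes at the other special points. -/
noncomputable def oB (p : ZMod l → ℤ × ℤ) (n : ℕ) (Q : Marks) (bc : Bc)
    (x : Fin l × Fin (Q.m + 1)) (ρ : ℤ) : Finset (ℤ × ℤ) := by
  classical
  exact (univ.filter fun y : Fin l × Fin (Q.m + 1) => y ≠ x ∧ Spc l Q bc y).biUnion
    fun y => Bq (yO p n Q bc y.1) (ρ + 4)

theorem mem_oB {x : Fin l × Fin (Q.m + 1)} :
    v ∈ oB p n Q bc x ρ ↔ ∃ y, y ≠ x ∧ Spc l Q bc y ∧ v ∈ Bq (yO p n Q bc y.1) (ρ + 4) := by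
  classical
  unfold oB
  simp only [mem_biUnion, mem_filter, mem_univ, true_and, and_assoc]

theorem ctr_box {x : ℤ × ℤ} (hx : x = crn r b) : Bq (ctr r 2) ρ ⊆ Bq x (ρ + 4) := by
  intro v hv
  have e1 : ctr r 2 = r.sq r.k0 := rfl
  rw [e1] at hv
  unfold Bq at hv ⊢
  rw [mem_product, mem_Ico, mem_Ico] at hv ⊢
  rw [hx]
  unfold crn
  by_cases ho : r.o = true <;> cases b <;>
    simp only [ho, if_true, if_false, Bool.false_eq_true] <;> omega

/-- The factors of the other junctions. -/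
noncomputable def Got (θ β : ℝ) (p : ZMod l → ℤ × ℤ) (n : ℕ) (Q : Marks) (bc : Bc) (d : ℕ)
    (x : Fin l × Fin (Q.m + 1)) (ρ : ℤ) (ω : Cfg) : ℝ :=
  ∏ y ∈ univ.erase x, Tc θ (uI (frows θ β p Q n d bc)) (frows θ β p Q n d bc y) 2 ρ ω

theorem tjun_eq {d : ℕ} (x : Fin l × Fin (Q.m + 1)) (ω : Cfg) :
    H398.Q.Tjun θ (frows θ β p Q n d bc) ρ ω =
      Tc θ (uI (frows θ β p Q n d bc)) (frows θ β p Q n d bc x) 2 ρ ω *
        Got θ β p n Q bc d x ρ ω := by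
  unfold H398.Q.Tjun Got
  exact (mul_prod_erase _ _ (mem_univ x)).symm

theorem got_nonneg (h0 : 0 < θ) (h1 : θ ≤ Real.pi / 3) {d : ℕ} (x : Fin l × Fin (Q.m + 1))
    (ω : Cfg) : 0 ≤ Got θ β p n Q bc d x ρ ω :=
  prod_nonneg fun _ _ => H945.Q.Tc_nonneg h0 h1 _ _ _ _ _

theorem got_loc {d : ℕ} (x : Fin l × Fin (Q.m + 1))
    (hz1 : ∀ y, ¬ Plain (frows θ β p Q n d bc y) → Spc l Q bc y)
    (hz2 : ∀ y, Spc l Q bc y →
      crn (frows θ β p Q n d bc y) (ex (pdir p y.1)) = yO p n Q bc y.1) :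
    Loc (oB p n Q bc x ρ) (Got θ β p n Q bc d x ρ) := by
  intro ω ω' h
  unfold Got
  refine prod_congr rfl fun y hy => ?_
  by_cases hP : Plain (frows θ β p Q n d bc y)
  · unfold Tc
    rw [if_neg (by decide), if_neg (by decide), if_pos hP, if_neg (by decide), if_neg (by decide),
      if_pos hP]
  · have hs := hz1 y hP
    refine H945.Q.Tc_loc _ _ _ _ ω ω' fun v hv => h v ?_
    exact mem_oB.2 ⟨y, (mem_erase.1 hy).1, hs, ctr_box (hz2 y hs).symm hv⟩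

end Vale.Agent.P167.H704.S
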