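import Vale.Agent.P167.H704.S.Shield
import Vale.Agent.P167.H506.Q.Tr

/-!
# P167, general `q`, block Q-START (P2S): the law part

`law`: the expectation of `T0 * G0` is bounded by the expectation over the event `A`, if the factor
`T0` of a zero type point is not zero only on arms (`S`, or `V x` and `W x`), and if the arm and the
shield give a lower bound of `T0` and the event `A`.
-/

namespace Vale.Agent.P167.H704.S

open Finset Relation MeasureTheory Vale.Agent.P167.FK Vale.Agent.P167.FKA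
open Vale.Agent.P167.H632 (IncC)
open Vale.Agent.P167.H469 (Ks)
open Vale.Agent.P167.H506.Q (LF EF EF_tr EF_mono EF_mul_left loc_bdd)
open Vale.Agent.P167.H519 (IsLim)
open Vale.Agent.P167.H871 (Dep)
open Vale.Agent.P167.QX (QL)

variable {Q : ℝ} {E I B : Finset (ℤ × ℤ)} {e : Bool} {p : ℤ × ℤ} {r0 : Fin 4}
  {N : ℕ} {s' M M' ρ R₀ : ℤ} {T T' : TubP} {P : Measure Cfg}

theorem LF.add' {F G : Cfg → ℝ} (hF : LF F) (hG : LF G) : LF fun ω => F ω + G ω :=
  hF.op hG fun a b => a + b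

theorem LF.sum' {ι : Type*} (X : Finset ι) {F : ι → Cfg → ℝ} (h : ∀ x ∈ X, LF (F x)) :
    LF fun ω => ∑ x ∈ X, F x ω := by
  classical
  induction X using Finset.induction_on with
  | empty => exact ⟨∅, fun ω ω' _ => by simp⟩
  | insert x X hx ih =>
    have h1 := LF.add' (h x (mem_insert_self _ _)) (ih fun y hy => h y (mem_insert_of_mem hy))
    obtain ⟨U, hU⟩ := h1
    refine ⟨U, fun ω ω' hh => ?_⟩
    show ∑ y ∈ insert x X, F y ω = ∑ y ∈ insert x X, F y ω'
    rw [sum_insert hx, sum_insert hx]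
    exact hU ω ω' hh

theorem Ex_sum' {ι : Type*} {D : Finset (ℤ × ℤ)} {η : Cfg} (X : Finset ι) {F : ι → Cfg → ℝ} :
    Ex Q D η (fun ω => ∑ x ∈ X, F x ω) = ∑ x ∈ X, Ex Q D η (F x) := by
  classical
  induction X using Finset.induction_on with
  | empty =>
    simp only [sum_empty]
    unfold Ex
    simp
  | insert x X hx ih =>
    rw [sum_insert hx, ← ih, ← Ex_add]
    refine Ex_congr fun S _ => ?_
    rw [sum_insert hx]

/-- **The law part of P2S.** -/
theorem law (hP : IsLim Q P) (hg : ∀ᵐ ω ∂P, Good ω) (C : Kn Q) (C' : Ks Q)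
    (h : Tub C.K C'.Λ C.s0 N E I B p r0 0 M ρ R₀ T)
    (h' : Tub C.K C'.Λ C.s0 N E I B p r0 s' M' ρ R₀ T') {σ : Cfg} {T0 G0 : Cfg → ℝ}
    (hG0 : ∀ ω, 0 ≤ G0 ω) (hGl : Loc (I ∪ B) G0) (hTl : LF T0) (hT0 : ∀ ω, 0 ≤ T0 ω)
    {S : Set Cfg} (hS : IncC e S) (hSd : ∃ U, Dep U S) {ι : Type} (X : Finset ι)
    {V W : ι → Set Cfg}
    (hV : ∀ x ∈ X, Loc (I ∪ (B ∪ Bq p s')) ((V x).indicator (1 : Cfg → ℝ)))
    (hW : ∀ x ∈ X, IncC (!e) (W x)) (hWd : ∀ x ∈ X, ∃ U, Dep U (W x))
    {CT cT : ℝ} (hCT : 0 < CT) (hcT : 0 < cT) (up : ∀ ω, Good ω → T0 ω ≤ CT)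
    (up' : ∀ ω, Good ω → T0 ω ≠ 0 → ω ∈ S ∨ ∃ x ∈ X, ω ∈ V x ∧ ω ∈ W x)
    (dj : ∀ ω, ∀ x ∈ X, ∀ x' ∈ X, ω ∈ V x → ω ∈ V x' → x = x')
    {A : Set Cfg} (hA : QL (A.indicator (1 : Cfg → ℝ)))
    (lo : ∀ ω, Good ω → (∀ v ∈ I, ω v = σ v) → (ω ∈ S ∩ ShT e r0 p C.K T ∨
      ∃ x ∈ X, ω ∈ V x ∧ ω ∈ W x ∩ ShT (!e) r0 p C.K T') →
        cT ≤ T0 ω ∧ (T0 ω * G0 ω ≠ 0 → ω ∈ A)) :
    EF P I σ (fun ω => T0 ω * G0 ω) ≤ 2 * CT / (cSh C C' N * cT) *
      EF P I σ (fun ω => T0 ω * G0 ω * A.indicator 1 ω) := by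
  classical
  have hQ := C.hQ
  have hQ0 : 0 < Q := by linarith
  have hPp : IsProbabilityMeasure P := hP.1
  have hcS := cSh_pos C C' N
  -- the local minorant
  obtain ⟨G', hG'⟩ : ∃ G' : Cfg → ℝ, G' = fun ω =>
      G0 ω * (S ∩ ShT e r0 p C.K T).indicator 1 ω + ∑ x ∈ X, (G0 ω * (V x).indicator 1 ω) *
        (W x ∩ ShT (!e) r0 p C.K T').indicator 1 ω := ⟨_, rfl⟩
  have hGLF : LF G0 := ⟨_, hGl⟩
  obtain ⟨U1, hU1⟩ := dep_ShT (e := e) (r0 := r0) (p := p) (K := C.K) (T := T)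
    (by have := h.hr; omega) (by have := h.hr; have := h.hr1; omega)
  obtain ⟨U2, hU2⟩ := dep_ShT (e := !e) (r0 := r0) (p := p) (K := C.K) (T := T')
    (by have := h'.hr; omega) (by have := h'.hr; have := h'.hr1; omega)
  have hlf : LF G' := by
    rw [hG']
    refine LF.add' (hGLF.mul ?_) (LF.sum' X fun x hx => (hGLF.mul ?_).mul ?_)
    · obtain ⟨U, hU⟩ := hSd
      exact dep_lf (hU.inter' hU1)
    · exact ⟨_, hV x hx⟩
    · obtain ⟨U, hU⟩ := hWd x hx
      exact dep_lf (hU.inter' hU2)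
  have i0 : ∀ (A : Set Cfg) (ω : Cfg), 0 ≤ A.indicator (1 : Cfg → ℝ) ω := fun A ω =>
    Set.indicator_nonneg (fun _ _ => zero_le_one) ω
  have i1 : ∀ (A : Set Cfg) (ω : Cfg), A.indicator (1 : Cfg → ℝ) ω ≤ 1 := fun A ω =>
    Set.indicator_le_self' (fun _ _ => zero_le_one) ω
  -- finite domains
  have step1 : cSh C C' N * EF P I σ (fun ω => T0 ω * G0 ω) ≤ CT * EF P I σ G' := by
    refine EF_tr hQ hP hg I σ (hTl.mul hGLF) hlf R₀ fun D η hD _ hη _ => ?_
    have h1 : Ex Q (D \ I) η (fun ω => T0 ω * G0 ω) ≤ CT * (Ex Q (D \ I) η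
        (fun ω => G0 ω * S.indicator 1 ω) + ∑ x ∈ X, Ex Q (D \ I) η
          (fun ω => (G0 ω * (V x).indicator 1 ω) * (W x).indicator 1 ω)) := by
      rw [← Ex_sum', ← Ex_add, ← Ex_mul_left]
      refine Ex_mono hQ0 fun Z _ => ?_
      have hgd : Good (cf (D \ I) η Z) := f_good.1 _ _ _ hη
      generalize cf (D \ I) η Z = ω at hgd
      have g0 := hG0 ω
      have hsum : 0 ≤ ∑ x ∈ X, (G0 ω * (V x).indicator 1 ω) * (W x).indicator 1 ω :=
        sum_nonneg fun x _ => mul_nonneg (mul_nonneg g0 (i0 _ _)) (i0 _ _)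
      by_cases hz : T0 ω = 0
      · rw [hz, zero_mul]
        exact mul_nonneg hCT.le (add_nonneg (mul_nonneg g0 (i0 _ _)) hsum)
      · have h2 : G0 ω ≤ G0 ω * S.indicator 1 ω +
            ∑ x ∈ X, (G0 ω * (V x).indicator 1 ω) * (W x).indicator 1 ω := by
          rcases up' ω hgd hz with h3 | ⟨x, hx, h3, h4⟩
          · rw [Set.indicator_of_mem h3]
            simp only [Pi.one_apply, mul_one]
            linarith
          · have h5 : (G0 ω * (V x).indicator 1 ω) * (W x).indicator 1 ω ≤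
                ∑ x ∈ X, (G0 ω * (V x).indicator 1 ω) * (W x).indicator 1 ω :=
              single_le_sum (f := fun x => (G0 ω * (V x).indicator 1 ω) * (W x).indicator 1 ω)
                (fun x _ => mul_nonneg (mul_nonneg g0 (i0 _ _)) (i0 _ _)) hx
            rw [Set.indicator_of_mem h3, Set.indicator_of_mem h4] at h5
            simp only [Pi.one_apply, mul_one] at h5
            have h6 := mul_nonneg g0 (i0 S ω)
            linarith
        exact mul_le_mul (up ω hgd) h2 g0 hCT.le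
    have h2 : cSh C C' N * Ex Q (D \ I) η (fun ω => G0 ω * S.indicator 1 ω) ≤
        Ex Q (D \ I) η (fun ω => G0 ω * (S ∩ ShT e r0 p C.K T).indicator 1 ω) :=
      tub_piece C C' h hη hD (fun ω ω' hh => hGl ω ω' fun v hv => hh v (by
        rw [mem_union] at hv
        rw [mem_union, mem_union]
        rcases hv with hv | hv
        · exact Or.inl hv
        · exact Or.inr (Or.inl hv))) hG0 hS
    have h3 : ∀ x ∈ X, cSh C C' N * Ex Q (D \ I) η
          (fun ω => (G0 ω * (V x).indicator 1 ω) * (W x).indicator 1 ω) ≤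
        Ex Q (D \ I) η (fun ω => (G0 ω * (V x).indicator 1 ω) *
          (W x ∩ ShT (!e) r0 p C.K T').indicator 1 ω) := fun x hx =>
      tub_piece C C' h' hη hD (F := fun ω => G0 ω * (V x).indicator 1 ω) (fun ω ω' hh => by
        show G0 ω * (V x).indicator 1 ω = G0 ω' * (V x).indicator 1 ω'
        rw [hV x hx ω ω' hh, hGl ω ω' fun v hv => hh v (by
          rw [mem_union] at hv
          rw [mem_union, mem_union]
          rcases hv with hv | hv
          · exact Or.inl hv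
          · exact Or.inr (Or.inl hv))]) (fun ω => mul_nonneg (hG0 ω) (i0 _ _)) (hW x hx)
    have h4 : Ex Q (D \ I) η G' = Ex Q (D \ I) η
        (fun ω => G0 ω * (S ∩ ShT e r0 p C.K T).indicator 1 ω) + ∑ x ∈ X, Ex Q (D \ I) η
          (fun ω => (G0 ω * (V x).indicator 1 ω) *
            (W x ∩ ShT (!e) r0 p C.K T').indicator 1 ω) := by
      rw [hG', ← Ex_sum', ← Ex_add]
    rw [h4]
    have h5 : cSh C C' N * (Ex Q (D \ I) η (fun ω => G0 ω * S.indicator 1 ω) + ∑ x ∈ X,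
        Ex Q (D \ I) η (fun ω => (G0 ω * (V x).indicator 1 ω) * (W x).indicator 1 ω)) ≤
        Ex Q (D \ I) η (fun ω => G0 ω * (S ∩ ShT e r0 p C.K T).indicator 1 ω) + ∑ x ∈ X,
          Ex Q (D \ I) η (fun ω => (G0 ω * (V x).indicator 1 ω) *
            (W x ∩ ShT (!e) r0 p C.K T').indicator 1 ω) := by
      rw [mul_add, mul_sum]
      exact add_le_add h2 (sum_le_sum h3)
    calc cSh C C' N * Ex Q (D \ I) η (fun ω => T0 ω * G0 ω)
        ≤ cSh C C' N * (CT * _) := mul_le_mul_of_nonneg_left h1 hcS.le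
      _ = CT * (cSh C C' N * _) := by ring
      _ ≤ _ := mul_le_mul_of_nonneg_left h5 hCT.le
  -- the whole plane
  have step2 : EF P I σ G' ≤ 2 / cT * EF P I σ (fun ω => T0 ω * G0 ω * A.indicator 1 ω) := by
    rw [← EF_mul_left]
    obtain ⟨U, hU⟩ := hlf
    obtain ⟨M1, hM1⟩ := loc_bdd hU
    obtain ⟨U', hU'⟩ := hTl.mul hGLF
    obtain ⟨M2, hM2⟩ := loc_bdd hU'
    refine EF_mono hg (QL.of_loc hU) (G := fun ω => 2 / cT * (T0 ω * G0 ω * A.indicator 1 ω))
      (((QL.of_loc hU').mul hA).comp fun x => 2 / cT * x) (M := M1)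
      (M' := 2 / cT * (M2 * 1)) (fun ω _ => hM1 ω) (fun ω _ => ?_) fun ω hω hk => ?_
    · rw [abs_mul, abs_mul, abs_of_nonneg (by positivity : 0 ≤ 2 / cT), abs_of_nonneg (i0 A ω)]
      have := hM2 ω
      have h1 := i1 A ω
      have h2 := i0 A ω
      have h3 : 0 ≤ M2 := (abs_nonneg _).trans this
      gcongr
    · have g0 := hG0 ω
      have t0 := hT0 ω
      by_cases hev : ω ∈ S ∩ ShT e r0 p C.K T ∨
        ∃ x ∈ X, ω ∈ V x ∧ ω ∈ W x ∩ ShT (!e) r0 p C.K T'
      · obtain ⟨k1, k2⟩ := lo ω hω hk hev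
        -- the sum
        have hs : ∑ x ∈ X, (G0 ω * (V x).indicator 1 ω) *
            (W x ∩ ShT (!e) r0 p C.K T').indicator 1 ω ≤ G0 ω := by
          by_cases hx : ∃ x ∈ X, ω ∈ V x
          · obtain ⟨x, hx, hVx⟩ := hx
            rw [sum_eq_single x (fun y hy hne => ?_) fun h => absurd hx h]
            · calc _ ≤ (G0 ω * 1) * 1 := mul_le_mul (mul_le_mul_of_nonneg_left (i1 _ _) g0)
                    (i1 _ _) (i0 _ _) (by linarith)
                _ = G0 ω := by ring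
            · rw [Set.indicator_of_notMem (fun hVy => hne (dj ω y hy x hx hVy hVx)), mul_zero,
                zero_mul]
          · rw [sum_eq_zero fun y hy => ?_]
            · exact g0
            · rw [Set.indicator_of_notMem (fun hVy => hx ⟨y, hy, hVy⟩), mul_zero, zero_mul]
        have hS' : G0 ω * (S ∩ ShT e r0 p C.K T).indicator 1 ω ≤ G0 ω := by
          calc _ ≤ G0 ω * 1 := mul_le_mul_of_nonneg_left (i1 _ _) g0
            _ = G0 ω := mul_one _
        have hG2 : G' ω ≤ 2 * G0 ω := by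
          rw [hG']
          show _ + _ ≤ _
          linarith
        rcases g0.eq_or_lt with h0 | h0
        · rw [← h0] at hG2 ⊢
          simp only [mul_zero, zero_mul]
          linarith
        · have hTG : T0 ω * G0 ω ≠ 0 := (mul_pos (lt_of_lt_of_le hcT k1) h0).ne'
          show G' ω ≤ 2 / cT * (T0 ω * G0 ω * A.indicator 1 ω)
          rw [Set.indicator_of_mem (k2 hTG)]
          simp only [Pi.one_apply, mul_one]
          refine hG2.trans ?_
          rw [div_mul_eq_mul_div, le_div_iff₀ hcT]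
          nlinarith
      · have hz : G' ω = 0 := by
          rw [hG']
          show _ + _ = 0
          rw [Set.indicator_of_notMem (fun h1 => hev (Or.inl h1)), mul_zero, zero_add]
          refine sum_eq_zero fun y hy => ?_
          by_cases hVy : ω ∈ V y
          · rw [Set.indicator_of_notMem (s := W y ∩ _) (fun h1 => hev (Or.inr ⟨y, hy, hVy, h1⟩)),
              mul_zero]
          · rw [Set.indicator_of_notMem hVy, mul_zero, zero_mul]
        rw [hz]
        exact mul_nonneg (by positivity) (mul_nonneg (mul_nonneg t0 g0) (i0 _ _))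
  -- together
  have e1 : 2 * CT / (cSh C C' N * cT) = CT / cSh C C' N * (2 / cT) := by
    field_simp
  rw [e1, mul_assoc]
  have h5 : EF P I σ (fun ω => T0 ω * G0 ω) ≤ CT / cSh C C' N * EF P I σ G' := by
    rw [div_mul_eq_mul_div, le_div_iff₀ hcS]
    linarith
  exact h5.trans (mul_le_mul_of_nonneg_left step2 (by positivity))

end Vale.Agent.P167.H704.S
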