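import Vale.Agent.P167.H704.S.Tube
import Vale.Agent.P167.H704.S.Half

/-!
# P167, general `q`, block Q-START (P2S): the path to infinity

An arm from a site near the outer site `p` of a zero-type point, two tubes (small nodes along the
normal, large nodes along a corridor) and a half annulus without crossing: the site is joined to a
distant site outside of the polygon.
-/

namespace Vale.Agent.P167.H704.S

open Finset Relation Vale.Agent.P167.FK Vale.Agent.P167.FKA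
open Vale.Agent.P145.FB (PStep PConn)
open Vale.Agent.P167.E6 (dir)
open Vale.Agent.P167.H632 (IncC cs pr nm_le le_nm NoX an bl mem_bl first_exit pr_or sq_mem_bl)
open Vale.Agent.P167.H166N (Hs Qs Fold exists_fold nd Nds Hub exists_hub hub_glue chain nm_tri
  nm_comm hs_sq pconn_congr)

variable {e : Bool} {p v z' : ℤ × ℤ} {m m' r r1 a : ℤ} {K i2 : ℕ} {r0 : Fin 4} {ω : Cfg}
  {z : ℕ → ℤ × ℤ}

/-- The points of the normal. -/
def zn (p : ℤ × ℤ) (r0 : Fin 4) (a r : ℤ) (i : ℕ) : ℤ × ℤ := p + (a + i * r) • dir (r0 - 1)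

theorem nm_smul_dir {s : ℤ} (hs : 0 ≤ s) : nm (s • dir (r0 - 1)) = s := by
  fin_cases r0 <;> simp [nm, dir, abs_of_nonneg hs, hs]

theorem nm_zn (ha : 0 ≤ a) (hr : 0 ≤ r) (i : ℕ) : nm (zn p r0 a r i - p) = a + i * r := by
  unfold zn
  rw [add_sub_cancel_left]
  exact nm_smul_dir (by positivity)

theorem zn_step (hr : 0 ≤ r) (i : ℕ) : nm (zn p r0 a r (i + 1) - zn p r0 a r i) ≤ r := by
  unfold zn
  have e1 : p + (a + ((i + 1 : ℕ) : ℤ) * r) • dir (r0 - 1) - (p + (a + i * r) • dir (r0 - 1)) =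
      r • dir (r0 - 1) := by
    push_cast
    module
  rw [e1, nm_smul_dir hr]

theorem zn_ball {R : ℤ} (hr : 0 ≤ r) (hR : R ≤ a) (i : ℕ) : bl (zn p r0 a r i) R ⊆ Hs r0 p := by
  intro w hw
  rw [mem_bl] at hw
  unfold zn at hw
  have hi : (0 : ℤ) ≤ (i : ℤ) * r := by positivity
  have h1 : R ≤ a + i * r := by omega
  generalize a + (i : ℤ) * r = s at h1 hw
  fin_cases r0 <;> simp [Hs, dir] at hw ⊢ <;> omega

theorem bl_sub_bl {x y : ℤ × ℤ} {R R' : ℤ} (h : nm (x - y) + R ≤ R') : bl x R ⊆ bl y R' := by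
  intro w hw
  have h1 : nm (w - x) ≤ R := hw
  have h2 := nm_tri w x y
  show nm (w - y) ≤ R'
  omega

/-- **First part**: inside the half plane. -/
theorem path_in (hr : 1 ≤ r) (hK : 3 ≤ K) (hm : 1 ≤ m) (hmm : m ≤ m') (ha : K * r ≤ a)
    (ham : a + r < m) (hi2 : m' + r ≤ a + i2 * r) (hv : (v.1 + v.2) % 2 = pr e)
    (hvm : nm (v - p) < m) (hA : PConn (cs e ω) (Hs r0 p) v z') (hz' : m' ≤ nm (z' - p))
    (hN : ∀ i ≤ i2, ω ∈ nd e (zn p r0 a r i) r (K * r)) (hH : ω ∈ NH e r0 p m m') {y : ℤ × ℤ}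
    (hy : Hub e (zn p r0 a r i2) r (K * r) ω y) :
    ∃ y0, Hub e (zn p r0 a r 0) r (K * r) ω y0 ∧
      PConn (cs e ω) (Hs r0 p ∩ bl p (a + i2 * r + K * r)) v y0 ∧
      PConn (cs e ω) (Hs r0 p ∩ bl p (a + i2 * r + K * r)) y0 y := by
  have hK' : (3 : ℤ) ≤ K := by exact_mod_cast hK
  have hR1 : 2 * r + 1 ≤ K * r := by nlinarith
  have hi0 : (0 : ℤ) ≤ (i2 : ℤ) * r := by positivity
  obtain ⟨y0, hy0⟩ := exists_hub (hN 0 (Nat.zero_le _))
  have c1 : PConn (cs e ω) (Hs r0 p ∩ bl p (a + i2 * r + K * r)) y0 y := by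
    refine chain (by omega) hR1 (zn p r0 a r) i2 (fun i _ => zn_step (by omega) i)
      (fun i hi => hN i hi) (fun i hi => Set.subset_inter (zn_ball (by omega) ha i)
        (bl_sub_bl ?_)) hy0 hy
    rw [nm_zn (by omega) (by omega)]
    have : (i : ℤ) * r ≤ i2 * r := mul_le_mul_of_nonneg_right (by exact_mod_cast hi) (by omega)
    omega
  have n0 : nm (y0 - p) ≤ a + r := by
    have h1 := nm_tri y0 (zn p r0 a r 0) p
    rw [nm_zn (by omega) (by omega)] at h1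
    have h2 := hy0.2.1
    push_cast at h1
    omega
  have ni : m' ≤ nm (y - p) := by
    have h1 := nm_tri (zn p r0 a r i2) y p
    rw [nm_zn (by omega) (by omega)] at h1
    have h2 := hy.2.1
    rw [nm_comm] at h2
    omega
  obtain ⟨w, hw1, hw2, -⟩ := first_exit c1 (b := p) (R := m') (by omega) ni
  obtain ⟨t, ht1, ht2, -⟩ := first_exit hA (b := p) (R := m') (by omega) hz'
  obtain ⟨f, g, hfg⟩ := exists_fold r0 p
  have c2 : PConn (cs e ω) (Hs r0 p ∩ bl p m') v y0 :=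
    glueH hfg (pr_or _) hm hmm hH hv hy0.1 ht2 (hw2.mono subset_rfl
      (Set.inter_subset_inter_left _ Set.inter_subset_left)) hvm (by omega) ht1.ge hw1.ge
  refine ⟨y0, hy0, c2.mono subset_rfl (Set.inter_subset_inter_right _ ?_), c1⟩
  intro w hw
  have h1 : nm (w - p) ≤ m' := hw
  show nm (w - p) ≤ _
  have : (0 : ℤ) ≤ K * r := by positivity
  omega

/-- **The path to infinity**: the second tube starts at the last point of the first one. -/
theorem path_out (hr : 1 ≤ r) (hK : 3 ≤ K) (hr1 : r ≤ r1) (hm : 1 ≤ m) (hmm : m ≤ m')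
    (ha : K * r ≤ a) (ham : a + r < m) (hi2 : m' + r ≤ a + i2 * r) (hi2' : K * r1 + r ≤ i2 * r)
    (hv : (v.1 + v.2) % 2 = pr e) (hvm : nm (v - p) < m) (hA : PConn (cs e ω) (Hs r0 p) v z')
    (hz' : m' ≤ nm (z' - p)) (hN : ∀ i ≤ i2, ω ∈ nd e (zn p r0 a r i) r (K * r))
    (hH : ω ∈ NH e r0 p m m') (hz0 : z 0 = zn p r0 a r i2) {n : ℕ}
    (hz1 : ∀ i < n, nm (z (i + 1) - z i) ≤ r1)
    (hN1 : ∀ i ≤ n, ω ∈ nd e (z i) r1 (K * r1)) : ∃ y t,
      a + i2 * r ≤ nm (y - p) + r ∧ nm (t - z n) ≤ r1 ∧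
      PConn (cs e ω) (Hs r0 p ∩ bl p (a + i2 * r + K * r)) v y ∧
      PConn (cs e ω) {w | ∃ i ≤ n, nm (w - z i) ≤ K * r1} y t := by
  have hK' : (3 : ℤ) ≤ K := by exact_mod_cast hK
  have hR1 : 2 * r1 + 1 ≤ K * r1 := by nlinarith
  obtain ⟨y, hy⟩ := exists_hub (hN i2 le_rfl)
  obtain ⟨y0, hy0, c1, c2⟩ := path_in hr hK hm hmm ha ham hi2 hv hvm hA hz' hN hH hy
  obtain ⟨w0, hw0⟩ := exists_hub (hN1 0 (Nat.zero_le _))
  obtain ⟨t, ht⟩ := exists_hub (hN1 n le_rfl)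
  have ha0 : 0 ≤ a := by
    have : (0 : ℤ) ≤ K * r := by positivity
    omega
  have c3 : PConn (cs e ω) (bl (z 0) (K * r1)) w0 y := by
    refine hub_glue (by omega) hR1 (hN1 0 (Nat.zero_le _)) hw0 hy.1 ?_ (u' := y0) ?_ c2.symm
    · rw [hz0]
      have := hy.2.1
      omega
    · have h1 := nm_tri (z 0) y0 (zn p r0 a r 0)
      have h2 : nm (z 0 - zn p r0 a r 0) = i2 * r := by
        rw [hz0]
        unfold zn
        have e1 : p + (a + (i2 : ℤ) * r) • dir (r0 - 1) - (p + (a + ((0 : ℕ) : ℤ) * r) •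
            dir (r0 - 1)) = ((i2 : ℤ) * r) • dir (r0 - 1) := by
          push_cast
          module
        rw [e1, nm_smul_dir (by positivity)]
      rw [h2, nm_comm (z 0)] at h1
      have h3 := hy0.2.1
      omega
  have c4 : PConn (cs e ω) {w | ∃ i ≤ n, nm (w - z i) ≤ K * r1} w0 t :=
    chain (by omega) hR1 z n hz1 hN1 (by intro i hi w hw; exact ⟨i, hi, hw⟩) hw0 ht
  refine ⟨y, t, ?_, ht.2.1, c1.trans c2, (c3.symm.mono subset_rfl ?_).trans c4⟩
  · have h1 := nm_tri (zn p r0 a r i2) y p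
    rw [nm_zn ha0 (by omega)] at h1
    have h2 := hy.2.1
    rw [nm_comm] at h2
    omega
  · intro w hw
    exact ⟨0, Nat.zero_le _, hw⟩

/-- The squares of a path in the half plane. -/
theorem half_sq {M : ℤ} {G : Set (ℤ × ℤ)} {y : ℤ × ℤ}
    (h : PConn (cs e ω) (Hs r0 p ∩ bl p M) v y)
    (hG : ∀ w, nm (w - p) ≤ M → w ∈ Qs r0 p → w ∈ G) : PConn (cs e ω ∩ G) Set.univ v y := by
  refine (pconn_congr (F' := cs e ω ∩ G) (fun x y hxy hx hy => ⟨hxy.2.2, ?_⟩) h).mono subset_rfl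
    (Set.subset_univ _)
  exact hG _ (sq_mem_bl hx.2 hy.2) (hs_sq hx.1 hy.1 hxy.1 hxy.2.1)

/-- The squares of a path in a tube. -/
theorem tube_sq {R : ℤ} {n : ℕ} {G : Set (ℤ × ℤ)} {y t : ℤ × ℤ}
    (h : PConn (cs e ω) {w | ∃ i ≤ n, nm (w - z i) ≤ R} y t)
    (hG : ∀ w, ∀ i ≤ n, nm (w - z i) ≤ R + 1 → w ∈ G) : PConn (cs e ω ∩ G) Set.univ y t := by
  refine (pconn_congr (F' := cs e ω ∩ G) (fun x y hxy hx _ => ⟨hxy.2.2, ?_⟩) h).mono subset_rfl
    (Set.subset_univ _)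
  obtain ⟨i, hi, hxi⟩ := hx
  refine hG _ i hi ?_
  have h1 : nm ((min x.1 y.1, min x.2 y.2) - x) ≤ 1 := by
    rw [nm_le]
    simp only [Prod.fst_sub, Prod.snd_sub]
    have := hxy.1
    have := hxy.2.1
    omega
  have h2 := nm_tri (min x.1 y.1, min x.2 y.2) x (z i)
  omega

end Vale.Agent.P167.H704.S
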