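import Vale.Agent.P167.H704.S.Path

/-!
# P167, general `q`, block Q-START (P2S): positive association given a part of the squares
-/

namespace Vale.Agent.P167.H704.S

open Finset Relation Vale.Agent.P167.FK Vale.Agent.P167.FKA
open Vale.Agent.P167.H632 (IncC)
open Vale.Agent.P167.H166N (Hs Qs nd Nds NX inc_nds inc_NX)
open Vale.Agent.P167.H469 (Ks)
open Vale.Agent.P167.H704.Q (prC_inter)
open Vale.Agent.P167.H259 (f_markov)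

variable {Q : ℝ} {D A' : Finset (ℤ × ℤ)} {η : Cfg} {e : Bool} {p : ℤ × ℤ} {m m' r r1 R2 : ℤ}
  {r0 : Fin 4} {F : Cfg → ℝ} {S G : Set Cfg} {c : ℝ}

/-- **Positive association given the squares off `A'`.** -/
theorem cond_fkg (hQ : 1 ≤ Q) (hη : Good η) (hA : A' ⊆ D) (hF : Ind A' F) (hF0 : ∀ ω, 0 ≤ F ω)
    (hS : IncC e S) (hG : IncC e G)
    (h : ∀ ω, Good ω → (∀ v, v ∉ D → ω v = η v) → c ≤ Pr Q A' ω G) :
    c * Ex Q D η (fun ω => F ω * S.indicator 1 ω) ≤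
      Ex Q D η (fun ω => F ω * (S ∩ G).indicator 1 ω) := by
  have hQ0 : 0 < Q := by linarith
  rw [markov f_markov (F := S.indicator 1) hQ0 hA hη hF,
    markov f_markov (F := (S ∩ G).indicator 1) hQ0 hA hη hF, ← Ex_mul_left]
  refine Ex_mono hQ0 fun T _ => ?_
  have g1 : Good (cf D η T) := f_good.1 D η T hη
  have h1 := h _ g1 fun v hv => cf_out hv
  have h2 := prC_inter (D := A') hQ g1 hS hG
  have h3 : 0 ≤ Pr Q A' (cf D η T) S := Pr_nonneg hQ0 _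
  have h4 := hF0 (cf D η T)
  have h5 : c * Pr Q A' (cf D η T) S ≤ Pr Q A' (cf D η T) (S ∩ G) := by
    refine le_trans ?_ h2
    rw [mul_comm c]
    exact mul_le_mul_of_nonneg_left h1 h3
  calc c * (F (cf D η T) * Pr Q A' (cf D η T) S)
      = F (cf D η T) * (c * Pr Q A' (cf D η T) S) := by ring
    _ ≤ F (cf D η T) * Pr Q A' (cf D η T) (S ∩ G) := mul_le_mul_of_nonneg_left h5 h4

/-- The shield. -/
def Shd (e : Bool) (r0 : Fin 4) (p : ℤ × ℤ) (m m' : ℤ) (K : ℕ) (Z2 : Finset (ℤ × ℤ)) (r : ℤ)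
    (Z1 : Finset (ℤ × ℤ)) (r1 R2 : ℤ) : Set Cfg :=
  NH e r0 p m m' ∩ (Nds e Z2 r (K * r) ∩ (Nds e Z1 r1 (K * r1) ∩ NX e p (2 * R2 + 1) (K * R2)))

theorem inc_Shd {K : ℕ} {Z2 Z1 : Finset (ℤ × ℤ)} :
    IncC e (Shd e r0 p m m' K Z2 r Z1 r1 R2) :=
  (inc_NH _ _ _ _ _).inter ((inc_nds _ _ _ _).inter ((inc_nds _ _ _ _).inter (inc_NX _ _ _ _)))

/-- **Probability of the shield.** -/
theorem shd_ge (C : Kn Q) (C' : Ks Q) {Z2 Z1 : Finset (ℤ × ℤ)} {n2 n1 : ℕ} (h2 : Z2.card ≤ n2)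
    (h1 : Z1.card ≤ n1) (hm : 1 ≤ m) (hm' : C'.Λ * m ≤ m') (hr : C.s0 ≤ r) (hr1 : C.s0 ≤ r1)
    (hR2 : 1 ≤ R2) (hη : Good η) (d1 : ∀ v ∈ Bq p m', v ∉ Bq p m → v ∈ Qs r0 p → v ∈ A')
    (d2 : ∀ b ∈ Z2, ∀ v, nm (v - b) ≤ (C.K + 2) * r → v ∈ A')
    (d3 : ∀ b ∈ Z1, ∀ v, nm (v - b) ≤ (C.K + 2) * r1 → v ∈ A')
    (d4 : ∀ v ∈ Bq p (C.K * R2), v ∉ Bq p (2 * R2 + 1) → v ∈ A') :
    C'.c0 * (C.c ^ n2 * (C.c ^ n1 * C.c)) ≤
      Pr Q A' η (Shd e r0 p m m' C.K Z2 r Z1 r1 R2) := by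
  have hQ0 := C.hQ0
  have hc := C.hc
  have hc1 := C.hc1
  have hc0 := C'.hc0
  have k1 := nh_ge (e := e) C' r0 hm hm' hη d1
  have k2 := C.nds (e := e) Z2 hr hη d2
  have k3 := C.nds (e := e) Z1 hr1 hη d3
  have k4 := C.ann e p R2 A' η hR2 hη fun v v1 v2 v3 => absurd (d4 v v1 v2) v3
  have k2' : C.c ^ n2 ≤ _ := (pow_le_pow_of_le_one hc.le hc1 h2).trans k2
  have k3' : C.c ^ n1 ≤ _ := (pow_le_pow_of_le_one hc.le hc1 h1).trans k3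
  refine (mul_le_mul k1 ((mul_le_mul k2' ((mul_le_mul k3' k4 hc.le (Pr_nonneg hQ0 _)).trans
    (prC_inter C.hQ hη (inc_nds _ _ _ _) (inc_NX _ _ _ _))) (by positivity)
    (Pr_nonneg hQ0 _)).trans (prC_inter C.hQ hη (inc_nds _ _ _ _) ((inc_nds _ _ _ _).inter
    (inc_NX _ _ _ _)))) (by positivity) (Pr_nonneg hQ0 _)).trans
    (prC_inter C.hQ hη (inc_NH _ _ _ _ _) ((inc_nds _ _ _ _).inter ((inc_nds _ _ _ _).inter
    (inc_NX _ _ _ _))))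

end Vale.Agent.P167.H704.S
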