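import Vale.Agent.P167.H704.S.TubD
import Vale.Agent.P167.H704.S.Prob
import Vale.Agent.P167.H506.Q.Rad

/-!
# P167, general `q`, block Q-START (P2S): the shield of a special point of zero type

`ShT e r0 p K T`: half annulus, small and large nodes, large annulus, for the colour `e`. Locality,
conditional probability (`tub_piece`), the path to a distant point (`tub_path`).
-/

namespace Vale.Agent.P167.H704.S

open Finset Relation Vale.Agent.P167.FK Vale.Agent.P167.FKA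
open Vale.Agent.P145.FB (PStep PConn)
open Vale.Agent.P167.H632 (IncC cs pr NoX an bl mem_bl)
open Vale.Agent.P167.H166N (Hs Qs nd Nds NX inc_nds inc_NX bq mem_bq pconn_bl dep_nds dep_NX dep_nd)
open Vale.Agent.P167.H469 (Ks)
open Vale.Agent.P167.H506.Q (LF)
open Vale.Agent.P167.H871 (Dep)

variable {Q : ℝ} {D E I B : Finset (ℤ × ℤ)} {η ω : Cfg} {e : Bool} {p v z' : ℤ × ℤ} {r0 : Fin 4}
  {K N : ℕ} {Λ s0 s' M ρ R₀ : ℤ} {T : TubP}

theorem dep_lf {U : Finset (ℤ × ℤ)} {A : Set Cfg} (h : Dep U A) : LF (A.indicator 1) := by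
  classical
  refine ⟨U, fun ω ω' hh => ?_⟩
  have h1 := h.iff hh
  by_cases h2 : ω ∈ A
  · rw [Set.indicator_of_mem h2, Set.indicator_of_mem (h1.1 h2)]
    rfl
  · rw [Set.indicator_of_notMem h2, Set.indicator_of_notMem fun h3 => h2 (h1.2 h3)]

theorem dep_NH (e : Bool) (r0 : Fin 4) (b : ℤ × ℤ) (m m' : ℤ) :
    Dep (bq b m') (NH e r0 b m m') := by
  intro o o' ho h y y' h1 h2 h3 h4
  refine h y y' h1 h2 h3 ?_
  rw [H632.cs_compl] at h4 ⊢
  exact pconn_bl (fun w hw => hw.2.2) (fun v hv h => by rw [ho v hv]; exact h) h4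

/-- The shield of the tubes `T`. -/
def ShT (e : Bool) (r0 : Fin 4) (p : ℤ × ℤ) (K : ℕ) (T : TubP) : Set Cfg :=
  Shd e r0 p T.m T.m' K ((range (T.i2 + 1)).image (zn p r0 T.a T.r)) T.r
    ((range (T.n1 + 1)).image T.z) T.r1 T.R2

theorem inc_ShT : IncC e (ShT e r0 p K T) := inc_Shd

theorem dep_ShT (hr : 0 ≤ T.r) (hr1 : 0 ≤ T.r1) : ∃ U : Finset (ℤ × ℤ), Dep U (ShT e r0 p K T) := by
  classical
  refine ⟨_, (dep_NH e r0 p T.m T.m').inter' ((dep_nds (U :=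
    ((range (T.i2 + 1)).image (zn p r0 T.a T.r)).biUnion fun b => bq b (K * T.r + T.r)) hr
      fun b hb => ?_).inter' ((dep_nds (U := ((range (T.n1 + 1)).image T.z).biUnion
        fun b => bq b (K * T.r1 + T.r1)) hr1 fun b hb => ?_).inter' (dep_NX _ _ _ _)))⟩
  · exact subset_biUnion_of_mem (fun b => bq b (K * T.r + T.r)) hb
  · exact subset_biUnion_of_mem (fun b => bq b (K * T.r1 + T.r1)) hb

/-- The lower bound of the probability of the shield. -/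
noncomputable def cSh (C : Kn Q) (C' : Ks Q) (N : ℕ) : ℝ := C'.c0 * (C.c ^ N * (C.c ^ N * C.c))

theorem cSh_pos (C : Kn Q) (C' : Ks Q) (N : ℕ) : 0 < cSh C C' N := by
  have h1 := C.hc
  have h2 := C'.hc0
  unfold cSh
  positivity

/-- **One piece**: the shield given the squares near the special point and in the other boxes. -/
theorem tub_piece (C : Kn Q) (C' : Ks Q) (h : Tub C.K C'.Λ C.s0 N E I B p r0 s' M ρ R₀ T)
    (hη : Good η) (hD : Bq 0 R₀ ⊆ D) {F : Cfg → ℝ} (hF : Loc (I ∪ (B ∪ Bq p s')) F)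
    (hF0 : ∀ ω, 0 ≤ F ω) {S : Set Cfg} (hS : IncC e S) :
    cSh C C' N * Ex Q (D \ I) η (fun ω => F ω * S.indicator 1 ω) ≤
      Ex Q (D \ I) η (fun ω => F ω * (S ∩ ShT e r0 p C.K T).indicator 1 ω) := by
  classical
  have key : ∀ {v : ℤ × ℤ}, v ∈ Bq 0 R₀ ∧ v ∉ I ∧ v ∉ B ∧ v ∉ Bq p s' →
      v ∈ (D \ I) \ (B ∪ Bq p s') := by
    rintro v ⟨h1, h2, h3, h4⟩
    rw [mem_sdiff, mem_sdiff, mem_union]
    exact ⟨⟨hD h1, h2⟩, fun h5 => h5.elim h3 h4⟩
  refine cond_fkg C.hQ hη (A' := (D \ I) \ (B ∪ Bq p s')) sdiff_subset (hF.ind ?_) hF0 hS inc_ShT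
    fun ω hω _ => ?_
  · rw [disjoint_right]
    intro v hv hv'
    rw [mem_sdiff, mem_sdiff] at hv
    rw [mem_union] at hv'
    exact hv'.elim hv.1.2 hv.2
  · refine shd_ge C C' ?_ ?_ h.hm h.hΛ h.hr0 (h.hr0.trans h.hr1) h.hR2 hω ?_ ?_ ?_ ?_
    · refine card_image_le.trans ?_
      rw [card_range]
      exact h.hN2
    · refine card_image_le.trans ?_
      rw [card_range]
      exact h.hN1
    · exact fun v h1 h2 h3 => key (h.d1 v h1 h2 h3)
    · intro b hb v hv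
      obtain ⟨i, hi, rfl⟩ := mem_image.1 hb
      rw [mem_range] at hi
      exact key (h.d2 i (by omega) v hv)
    · intro b hb v hv
      obtain ⟨i, hi, rfl⟩ := mem_image.1 hb
      rw [mem_range] at hi
      exact key (h.d3 i (by omega) v hv)
    · exact fun v h1 h2 => key (h.d4 v h1 h2)

/-- **The path to a distant point.** -/
theorem tub_path (hK : 3 ≤ K) (h : Tub K Λ s0 N E I B p r0 s' M ρ R₀ T)
    (hv : (v.1 + v.2) % 2 = pr e) (hvm : nm (v - p) < T.m) (hA : PConn (cs e ω) (Hs r0 p) v z')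
    (hz' : T.m' ≤ nm (z' - p)) (hω : ω ∈ ShT e r0 p K T) :
    (∃ y, ρ ≤ nm (y - p) ∧
      PConn (cs e ω) (Hs r0 p ∩ bl p (T.a + T.i2 * T.r + K * T.r)) v y) ∧
    ∃ t, K * T.R2 + 2 ≤ nm (t - p) ∧ PConn (cs e ω ∩ {w | w ∉ E ∧ w ∉ I}) Set.univ v t := by
  obtain ⟨h1, h2, h3, h4⟩ := hω
  obtain ⟨y, t, k1, k2, k3, k4⟩ := path_out h.hr hK h.hr1 h.hm h.hmm h.ha h.ham h.hi2 h.hi2' hv hvm
    hA hz' (fun i hi => h2 _ (mem_image.2 ⟨i, mem_range.2 (by omega), rfl⟩)) h1 h.hz0 h.hz1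
    (fun i hi => h3 _ (mem_image.2 ⟨i, mem_range.2 (by omega), rfl⟩))
  have hρ := h.hρ
  have hfar := h.far
  refine ⟨⟨y, by omega, k3⟩, t, ?_, ?_⟩
  · have h5 := H166N.nm_tri (T.z T.n1) t p
    rw [H166N.nm_comm] at k2
    omega
  · refine (half_sq k3 fun w h5 h6 => h.e1 w h5 h6).trans (tube_sq k4 fun w i hi h5 => ?_)
    exact h.e2 w i hi h5

end Vale.Agent.P167.H704.S
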