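import Vale.Agent.P167.H704.S.Path

/-!
# P167, general `q`, block Q-START (P2S): the radii and the two tubes at a special point of zero type

`E`: the enlarged polygon, `I`: the squares of the rows, `B`: the boxes at the other special points,
`p`: the outer site of the special point, `r0`: the direction of its side. Half annulus of radii `m`,
`m'`, small nodes of radius `r` along the normal from distance `a`, large nodes of radius `r1` at the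
points `z i`, annulus of radii `2 R2 + 1`, `K R2` around the polygon. The squares of the box of radius
`s'` at `p` are given. `M`: the length of the arm; `ρ`: the radius of the factors of the junctions.
-/

namespace Vale.Agent.P167.H704.S

open Finset
open Vale.Agent.P167.FK
open Vale.Agent.P167.H166N (Hs Qs)

/-- The radii and the points of the tubes. -/
structure TubP where
  i2 : ℕ
  n1 : ℕ
  a : ℤ
  m : ℤ
  m' : ℤ
  r : ℤ
  r1 : ℤ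
  R2 : ℤ
  z : ℕ → ℤ × ℤ

/-- **The two tubes at a special point.** -/
structure Tub (K : ℕ) (Λ s0 : ℤ) (N : ℕ) (E I B : Finset (ℤ × ℤ)) (p : ℤ × ℤ) (r0 : Fin 4)
    (s' M ρ R₀ : ℤ) (T : TubP) : Prop where
  hr0 : s0 ≤ T.r
  hr : 1 ≤ T.r
  hr1 : T.r ≤ T.r1
  hm : 1 ≤ T.m
  hs' : s' < T.m
  hmm : T.m ≤ T.m'
  hΛ : Λ * T.m ≤ T.m'
  hM : T.m' ≤ M
  ha : K * T.r ≤ T.a
  ham : T.a + T.r < T.m
  hi2 : T.m' + T.r ≤ T.a + T.i2 * T.r
  hρ : ρ + T.r ≤ T.a + T.i2 * T.r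
  hi2' : K * T.r1 + T.r ≤ T.i2 * T.r
  hz0 : T.z 0 = zn p r0 T.a T.r T.i2
  hz1 : ∀ i < T.n1, nm (T.z (i + 1) - T.z i) ≤ T.r1
  hN2 : T.i2 + 1 ≤ N
  hN1 : T.n1 + 1 ≤ N
  hR2 : 1 ≤ T.R2
  far : K * T.R2 + 2 + T.r1 ≤ nm (T.z T.n1 - p)
  inn : ∀ w, w ∈ E ∨ w ∈ I → nm (w - p) + 2 ≤ 2 * T.R2 + 1
  /-- the half annulus is free -/
  d1 : ∀ v ∈ Bq p T.m', v ∉ Bq p T.m → v ∈ Qs r0 p →
    v ∈ Bq 0 R₀ ∧ v ∉ I ∧ v ∉ B ∧ v ∉ Bq p s'
  /-- the balls of the small nodes are free -/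
  d2 : ∀ i ≤ T.i2, ∀ v, nm (v - zn p r0 T.a T.r i) ≤ (K + 2) * T.r →
    v ∈ Bq 0 R₀ ∧ v ∉ I ∧ v ∉ B ∧ v ∉ Bq p s'
  /-- the balls of the large nodes are free -/
  d3 : ∀ i ≤ T.n1, ∀ v, nm (v - T.z i) ≤ (K + 2) * T.r1 →
    v ∈ Bq 0 R₀ ∧ v ∉ I ∧ v ∉ B ∧ v ∉ Bq p s'
  /-- the large annulus is free -/
  d4 : ∀ v ∈ Bq p (K * T.R2), v ∉ Bq p (2 * T.R2 + 1) →
    v ∈ Bq 0 R₀ ∧ v ∉ I ∧ v ∉ B ∧ v ∉ Bq p s'
  /-- the first part of the path is off the polygon and the rows -/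
  e1 : ∀ w, nm (w - p) ≤ T.a + T.i2 * T.r + K * T.r → w ∈ Qs r0 p → w ∉ E ∧ w ∉ I
  /-- the second part of the path is off the polygon and the rows -/
  e2 : ∀ w, ∀ i ≤ T.n1, nm (w - T.z i) ≤ K * T.r1 + 1 → w ∉ E ∧ w ∉ I

end Vale.Agent.P167.H704.S
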