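import Vale.Agent.P167.H166N.V4
import Vale.Agent.P167.H704.Q.Rs

/-!
# P167, general `q`, block Q-START (P2S): tubes

Lower bounds for the probabilities of the nodes and of the annuli without crossings, for all
boundary conditions.
-/

namespace Vale.Agent.P167.H704.S

open Finset Vale.Agent.P167.FK Vale.Agent.P167.FKA
open Vale.Agent.P145.FB (PStep PConn)
open Vale.Agent.P153.Topo (Rect mem_rect)
open Vale.Agent.P167.H632 (IncC cs pr nm_le le_nm cs_compl HB inc_HB)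
open Vale.Agent.P167.H166N (nd Nds NX PX bq inc_nd inc_nds inc_NX NX_eq inc_PX)
open Vale.Agent.P167.H704 (Hc Vc)
open Vale.Agent.P167.H704.Q (rs_fk cst prC_inter prC_mono AC ac_half)

variable {Q : ℝ} {D : Finset (ℤ × ℤ)} {η : Cfg} {e : Bool} {b : ℤ × ℤ} {r R : ℤ}

theorem PX_sub_AC : PX e b r R ⊆ AC e b r R := by
  rintro ω ⟨y, y', h1, h2, h3, h4⟩
  exact ⟨y, y', h1, h2.le, h3.ge, h4.mono subset_rfl fun w hw => hw.2.2⟩

theorem HB_of_Vc (hrR : r ≤ R) {ω : Cfg}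
    (h : ω ∈ Vc e (b.1 - r) (b.1 + r) b.2 (b.2 + R)) : ω ∈ HB e b r R := by
  obtain ⟨s, t, s1, t1, s2, s3⟩ := h
  have hs := s3.left_mem
  have ht := s3.right_mem
  rw [mem_rect] at hs ht
  refine ⟨s, t, s2, ?_, ?_, s3.mono subset_rfl ?_⟩
  · rw [nm_le]
    simp only [Prod.fst_sub, Prod.snd_sub]
    omega
  · refine le_antisymm ?_ ?_
    · rw [nm_le]
      simp only [Prod.fst_sub, Prod.snd_sub]
      omega
    · rw [le_nm]
      simp only [Prod.fst_sub, Prod.snd_sub]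
      omega
  · intro w hw
    rw [mem_rect] at hw
    refine ⟨?_, ?_⟩
    · show b.2 ≤ w.2
      omega
    · show nm (w - b) ≤ R
      rw [nm_le]
      simp only [Prod.fst_sub, Prod.snd_sub]
      omega

/-- The constants of the nodes. -/
structure Kn (Q : ℝ) where
  hQ : 1 ≤ Q
  K : ℕ
  c : ℝ
  s0 : ℤ
  hK : 3 ≤ K
  hc : 0 < c
  hc1 : c ≤ 1
  hs0 : 1 ≤ s0
  ann : ∀ (e : Bool) (b : ℤ × ℤ) (r : ℤ) (D : Finset (ℤ × ℤ)) (η : Cfg), 1 ≤ r → Good η →
    (∀ v ∈ Bq b (K * r), v ∉ Bq b (2 * r + 1) → v ∉ D → η v = e) →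
    c ≤ Pr Q D η (NX e b (2 * r + 1) (K * r))
  node : ∀ (e : Bool) (b : ℤ × ℤ) (r : ℤ) (D : Finset (ℤ × ℤ)) (η : Cfg), s0 ≤ r → Good η →
    (∀ v, nm (v - b) ≤ (K + 2) * r → v ∈ D) → c ≤ Pr Q D η (nd e b r (K * r))

theorem nm_Bq {v : ℤ × ℤ} {R : ℤ} (h : v ∈ Bq b R) : nm (v - b) ≤ R := by
  unfold Bq at h
  rw [mem_product, mem_Ico, mem_Ico] at h
  rw [nm_le]
  simp only [Prod.fst_sub, Prod.snd_sub]
  omega

theorem exists_Kn (hQ : 1 ≤ Q) (h : RSW Q) : Nonempty (Kn Q) := by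
  have hQ0 : 0 < Q := by linarith
  obtain ⟨K0, hK0, hac⟩ := ac_half hQ h
  obtain ⟨K, hK⟩ : ∃ K : ℕ, K = (3 * K0).toNat := ⟨_, rfl⟩
  have hKK : (K : ℤ) = 3 * K0 := by omega
  have hK3 : 3 ≤ K := by omega
  obtain ⟨c1, s0, hc1, hc11, hs0, hrs⟩ := rs_fk hQ h (K + 1)
  have ann : ∀ (e : Bool) (b : ℤ × ℤ) (r : ℤ) (D : Finset (ℤ × ℤ)) (η : Cfg), 1 ≤ r → Good η →
      (∀ v ∈ Bq b (K * r), v ∉ Bq b (2 * r + 1) → v ∉ D → η v = e) →
      1 / 2 ≤ Pr Q D η (NX e b (2 * r + 1) (K * r)) := by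
    intro e b r D η hr hη hD
    rw [NX_eq, Pr_compl hQ0]
    have h1 := hac (!e) b (2 * r + 1) (K * r) D η (by omega) (by rw [hKK]; nlinarith) hη
      fun v h1 h2 h3 => by rw [Bool.not_not]; exact hD v h1 h2 h3
    have h2 := Pr_mono (Q := Q) (D := D) (η := η) hQ0 fun ω hω =>
      PX_sub_AC (e := !e) (b := b) (r := 2 * r + 1) (R := K * r) hω
    linarith
  refine ⟨⟨hQ, K, c1 * (1 / 2), s0, hK3, by positivity, by nlinarith, hs0, ?_, ?_⟩⟩
  · intro e b r D η hr hη hD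
    have := ann e b r D η hr hη hD
    nlinarith
  · intro e b r D η hr hη hD
    have hr0 : 1 ≤ r := hs0.trans hr
    have hKr : (3 : ℤ) ≤ K := by exact_mod_cast hK3
    have hin : ∀ v : ℤ × ℤ, b.1 - (K + 2) * r ≤ v.1 → v.1 ≤ b.1 + (K + 2) * r →
        b.2 - (K + 2) * r ≤ v.2 → v.2 ≤ b.2 + (K + 2) * r → v ∈ D := fun v h1 h2 h3 h4 =>
      hD v (by
        rw [nm_le]
        simp only [Prod.fst_sub, Prod.snd_sub]
        omega)
    have h1 : c1 ≤ Pr Q D η (HB e b r (K * r + r)) := by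
      refine le_trans ?_ (Pr_mono hQ0 fun ω hω => HB_of_Vc (by nlinarith) hω)
      refine (hrs e (b.1 - r) (b.1 + r) b.2 (b.2 + (K * r + r)) D η hη (by omega)
        (by nlinarith)).2 (by omega) ?_ fun v v1 v2 v3 v4 hv => ?_
      · push_cast
        nlinarith
      · refine absurd (hin v ?_ ?_ ?_ ?_) hv
        · nlinarith
        · nlinarith
        · nlinarith
        · nlinarith
    have h2 := ann e b r D η hr0 hη fun v hv _ hvD => absurd (hD v ((nm_Bq hv).trans (by nlinarith)))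
      hvD
    have h3 := prC_inter (D := D) hQ hη (inc_HB e b r (K * r + r))
      (inc_NX e b (2 * r + 1) (K * r))
    refine le_trans ?_ h3
    exact mul_le_mul h1 h2 (by norm_num) (Pr_nonneg hQ0 _)

namespace Kn

variable (C : Kn Q)

include C in
theorem hQ0 : 0 < Q := by have := C.hQ; linarith

/-- **Finitely many nodes.** -/
theorem nds (Z : Finset (ℤ × ℤ)) (hr : C.s0 ≤ r) (hη : Good η)
    (hD : ∀ b ∈ Z, ∀ v, nm (v - b) ≤ (C.K + 2) * r → v ∈ D) :
    C.c ^ Z.card ≤ Pr Q D η (Nds e Z r (C.K * r)) := by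
  classical
  have hQ0 := C.hQ0
  have hc := C.hc
  induction Z using Finset.induction_on with
  | empty =>
    have e1 : Nds e ∅ r (C.K * r) = Set.univ := by
      ext ω; simp [Nds]
    rw [e1, Finset.card_empty, pow_zero]
    unfold Pr
    rw [Set.indicator_univ]
    exact (Ex_const hQ0 1).ge
  | insert b Z hbZ ih =>
    have e1 : Nds e (insert b Z) r (C.K * r) = nd e b r (C.K * r) ∩ Nds e Z r (C.K * r) := by
      ext ω
      simp only [Nds, Finset.mem_insert, forall_eq_or_imp, Set.mem_ofPred_eq, Set.mem_inter_iff]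
    rw [e1, Finset.card_insert_of_notMem hbZ, pow_succ']
    refine le_trans ?_ (prC_inter C.hQ hη (inc_nd e b r (C.K * r)) (inc_nds e Z r (C.K * r)))
    exact mul_le_mul (C.node e b r D η hr hη (hD b (Finset.mem_insert_self _ _)))
      (ih fun b' hb' => hD b' (Finset.mem_insert_of_mem hb')) (by positivity) (Pr_nonneg hQ0 _)

end Kn

end Vale.Agent.P167.H704.S
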